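import Vale.Agent.P221.H609.Main
import Vale.Agent.P221.H521.Ops
import Mathlib.Data.Finsupp.Interval

/-!
# P221 (A1): the leading term claim
-/

open MvPolynomial

namespace Vale.Agent.P221.H609

noncomputable section conv

variable {p : ℕ} {n : ℕ} {k : Type} [CommRing k]

/-- coefficients of a functional -/
def toM (φ : Fnl n k) : M n k := fun E α => (φ E).coeff α

lemma toM_inj {φ ψ : Fnl n k} (h : toM φ = toM ψ) : φ = ψ := by
  funext E
  ext α
  exact congrFun (congrFun h E) α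

lemma toM_zero : toM (0 : Fnl n k) = 0 := by
  funext E α
  simp [toM]

lemma R_eq (l : ℕ) : R p n k l = ∑ a : Fin n, monomial (De p a l) (X a) := by
  unfold R
  refine Finset.sum_congr rfl fun a _ => ?_
  rw [X_pow_eq_monomial, C_mul_monomial, mul_one, De]

lemma V_coeff (a : Fin n) (φ : Fnl n k) (D E : ℕ →₀ ℕ) (α : Fin n →₀ ℕ) :
    V a (Z D (toM φ)) E α = (X a * φ (E + D)).coeff α := by
  classical
  rw [coeff_X_mul']
  by_cases h : 1 ≤ α a
  · rw [V_apply_pos h, if_pos (by rw [Finsupp.mem_support_iff]; omega)]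
    rfl
  · rw [V_apply_zero h, if_neg (by rw [Finsupp.mem_support_iff]; omega)]

lemma toM_op (l : ℕ) (φ : Fnl n k) : toM (op (R p n k l) φ) = Ro p 0 l (toM φ) := by
  funext E α
  rw [R_eq, H521.op_fsum]
  unfold Ro
  rw [Finset.filter_true_of_mem (fun a _ => Nat.zero_le _), LinearMap.sum_apply,
    Finset.sum_apply, Finset.sum_apply]
  unfold toM
  rw [Finset.sum_apply, coeff_sum]
  refine Finset.sum_congr rfl fun a _ => ?_
  rw [H521.op_monomial, Module.End.mul_apply]
  exact (V_coeff a φ _ E α).symm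

/-! ### weight projections -/

variable (p) in
open Classical in
/-- the part of weight `w` -/
def pw (w : ℤ) : Module.End k (M n k) where
  toFun φ := fun E α => if wt p E = w then φ E α else 0
  map_add' φ ψ := by
    funext E α
    by_cases h : wt p E = w <;> simp [h]
  map_smul' c φ := by
    funext E α
    by_cases h : wt p E = w <;> simp [h]

lemma pw_pos {w : ℤ} {E : ℕ →₀ ℕ} (h : wt p E = w) (φ : M n k) (α) :
    pw p w φ E α = φ E α := by simp [pw, h]

lemma pw_neg {w : ℤ} {E : ℕ →₀ ℕ} (h : ¬ wt p E = w) (φ : M n k) (α) :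
    pw p w φ E α = 0 := by simp [pw, h]

lemma Z_pw (D : ℕ →₀ ℕ) (w : ℤ) (φ : M n k) :
    Z D (pw p w φ) = pw p (w - wt p D) (Z D φ) := by
  funext E α
  rw [Z_apply]
  by_cases h : wt p E = w - wt p D
  · rw [pw_pos h, pw_pos (by rw [wt_add]; omega), Z_apply]
  · rw [pw_neg h, pw_neg (by rw [wt_add]; omega)]

lemma V_pw (a : Fin n) (w : ℤ) (φ : M n k) : V a (pw p w φ) = pw p w (V a φ) := by
  funext E α
  by_cases hα : 1 ≤ α a
  · by_cases h : wt p E = w
    · rw [V_apply_pos hα, pw_pos h, pw_pos h, V_apply_pos hα]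
    · rw [V_apply_pos hα, pw_neg h, pw_neg h]
  · by_cases h : wt p E = w
    · rw [V_apply_zero hα, pw_pos h, V_apply_zero hα]
    · rw [V_apply_zero hα, pw_neg h]

lemma Ro_pw (b j : ℕ) (w : ℤ) (φ : M n k) :
    Ro p b j (pw p w φ) = pw p (w - P p n j) (Ro p b j φ) := by
  unfold Ro
  rw [LinearMap.sum_apply, LinearMap.sum_apply, map_sum]
  refine Finset.sum_congr rfl fun a _ => ?_
  rw [Module.End.mul_apply, Module.End.mul_apply, Z_pw, V_pw, wt_De]

/-! ### degree projections -/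

open Classical in
/-- the part of polynomial degree `s` -/
def ph (s : ℕ) : Module.End k (M n k) where
  toFun φ := fun E α => if Finsupp.weight (1 : Fin n → ℕ) α = s then φ E α else 0
  map_add' φ ψ := by
    funext E α
    by_cases h : Finsupp.weight (1 : Fin n → ℕ) α = s <;> simp [h]
  map_smul' c φ := by
    funext E α
    by_cases h : Finsupp.weight (1 : Fin n → ℕ) α = s <;> simp [h]

lemma ph_pos {s : ℕ} {α : Fin n →₀ ℕ} (h : Finsupp.weight (1 : Fin n → ℕ) α = s) (φ : M n k)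
    (E) : ph s φ E α = φ E α := by simp [ph, h]

lemma ph_neg {s : ℕ} {α : Fin n →₀ ℕ} (h : ¬ Finsupp.weight (1 : Fin n → ℕ) α = s) (φ : M n k)
    (E) : ph s φ E α = 0 := by simp [ph, h]

lemma Z_ph (D : ℕ →₀ ℕ) (s : ℕ) (φ : M n k) : Z D (ph s φ) = ph s (Z D φ) := by
  funext E α
  rw [Z_apply]
  by_cases h : Finsupp.weight (1 : Fin n → ℕ) α = s
  · rw [ph_pos h, ph_pos h, Z_apply]
  · rw [ph_neg h, ph_neg h]

lemma weight_sub {a : Fin n} {α : Fin n →₀ ℕ} (h : 1 ≤ α a) :
    Finsupp.weight (1 : Fin n → ℕ) (α - Finsupp.single a 1) + 1 =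
      Finsupp.weight (1 : Fin n → ℕ) α := by
  have hle : Finsupp.single a 1 ≤ α := by
    rw [Finsupp.single_le_iff]; exact h
  conv_rhs => rw [← tsub_add_cancel_of_le hle]
  rw [map_add, Finsupp.weight_single]
  simp

lemma V_ph (a : Fin n) (s : ℕ) (φ : M n k) : V a (ph s φ) = ph (s + 1) (V a φ) := by
  funext E α
  by_cases hα : 1 ≤ α a
  · have h1 := weight_sub hα
    by_cases h : Finsupp.weight (1 : Fin n → ℕ) α = s + 1
    · rw [V_apply_pos hα, ph_pos h, ph_pos (by omega), V_apply_pos hα]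
    · rw [V_apply_pos hα, ph_neg h, ph_neg (by omega)]
  · by_cases h : Finsupp.weight (1 : Fin n → ℕ) α = s + 1
    · rw [V_apply_zero hα, ph_pos h, V_apply_zero hα]
    · rw [V_apply_zero hα, ph_neg h]

lemma Ro_ph (b j s : ℕ) (φ : M n k) : Ro p b j (ph s φ) = ph (s + 1) (Ro p b j φ) := by
  unfold Ro
  rw [LinearMap.sum_apply, LinearMap.sum_apply, map_sum]
  refine Finset.sum_congr rfl fun a _ => ?_
  rw [Module.End.mul_apply, Module.End.mul_apply, Z_ph, V_ph]

lemma ph_zero_V (a : Fin n) (φ : M n k) : ph 0 (V a φ) = 0 := by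
  funext E α
  by_cases h : Finsupp.weight (1 : Fin n → ℕ) α = 0
  · rw [ph_pos h]
    by_cases hα : 1 ≤ α a
    · have h1 := weight_sub hα
      omega
    · rw [V_apply_zero hα]; rfl
  · rw [ph_neg h]; rfl

lemma ph_zero_Ro (b j : ℕ) (φ : M n k) : ph 0 (Ro p b j φ) = 0 := by
  unfold Ro
  rw [LinearMap.sum_apply, map_sum]
  refine Finset.sum_eq_zero fun a _ => ?_
  rw [Module.End.mul_apply, ph_zero_V]

/-! ### back to polynomials -/

lemma wV_pos (hp : 2 ≤ p) (a : Fin n) : 1 ≤ wV p n a := by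
  unfold wV
  have h1 : (p : ℤ) ≤ p ^ ((a : ℕ) + 1) := by
    exact_mod_cast Nat.le_self_pow (Nat.succ_ne_zero _) p
  have h2 : (2 : ℤ) ≤ p := by exact_mod_cast hp
  omega

lemma finite_weight (hp : 2 ≤ p) (d : ℤ) :
    {α : Fin n →₀ ℕ | Finsupp.weight (wV p n) α = d}.Finite := by
  refine Set.Finite.subset
    (Set.finite_Icc 0 (Finsupp.equivFunOnFinite.symm (fun _ : Fin n => d.toNat))) ?_
  intro α hα
  rw [Set.mem_ofPred_eq] at hα
  refine Set.mem_Icc.2 ⟨zero_le, ?_⟩
  intro a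
  rw [Finsupp.equivFunOnFinite_symm_apply_apply]
  have h1 : (α a : ℤ) ≤ d := by
    rw [← hα, Finsupp.weight_apply]
    by_cases ha : a ∈ α.support
    · rw [Finsupp.sum]
      have h2 : α a • wV p n a ≤ ∑ i ∈ α.support, α i • wV p n i := by
        refine Finset.single_le_sum (f := fun i => α i • wV p n i) ?_ ha
        intro i _
        rw [nsmul_eq_mul]
        have := wV_pos hp i
        positivity
      refine le_trans ?_ h2
      rw [nsmul_eq_mul]
      have := wV_pos hp a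
      nlinarith [(by positivity : (0 : ℤ) ≤ (α a : ℤ))]
    · rw [Finsupp.notMem_support_iff] at ha
      rw [ha, Finsupp.sum]
      refine Finset.sum_nonneg fun i _ => ?_
      rw [nsmul_eq_mul]
      have := wV_pos hp i
      positivity
  omega

/-- functions of degree `t` come from functionals -/
lemma exists_fnl (hp : 2 ≤ p) {t : ℤ} (Ψ : M n k)
    (hΨ : ∀ E α, Ψ E α ≠ 0 → Finsupp.weight (wV p n) α = t + dT p E) :
    ∃ ψ : Fnl n k, toM ψ = Ψ := by
  classical
  refine ⟨fun E => ∑ α ∈ (finite_weight (n := n) hp (t + dT p E)).toFinset,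
    monomial α (Ψ E α), ?_⟩
  funext E α
  unfold toM
  rw [coeff_sum]
  simp only [coeff_monomial]
  rw [Finset.sum_ite_eq' _ α (fun x => Ψ E x)]
  by_cases h : Ψ E α = 0
  · rw [h, ite_self]
  · rw [if_pos]
    rw [Set.Finite.mem_toFinset]
    exact hΨ E α h

lemma dT_nonneg (hp : 2 ≤ p) (E : ℕ →₀ ℕ) : 0 ≤ dT p E := by
  have h1 := dT_ge (p := p) E
  have h2 := wt_nonneg (p := p) E
  have h3 : (2 : ℤ) ≤ p := by exact_mod_cast hp
  have h4 : 0 ≤ (p : ℤ) * dT p E := le_trans (mul_nonneg (by omega) h2) h1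
  exact nonneg_of_mul_nonneg_right h4 (by omega)

/-- the leading term claim for all weights at once -/
theorem all_weights (hp : 2 ≤ p) (hn : 1 ≤ n) (t : ℤ) (ht : 0 ≤ t) (l : ℕ) (φ : M n k)
    (hφ : ∀ E α, φ E α ≠ 0 → Finsupp.weight (wV p n) α = t + dq p n l + dT p E)
    (hk : ∀ j < l, Ro p 0 j φ = 0) :
    ∃ ψ : M n k, (∀ E α, ψ E α ≠ 0 → Finsupp.weight (wV p n) α = t + dT p E) ∧
      (∀ j < l, Ro p 0 j ψ = 0) ∧ Ro p 0 l ψ = φ := by
  have hp2 : (2 : ℤ) ≤ p := by exact_mod_cast hp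
  have H : ∀ w : ℕ, ∃ ψ ∈ (F p 0 t w : Submodule k (M n k)), (∀ j < l, Ro p 0 j ψ = 0) ∧
      Ro p 0 l ψ = pw p (w - P p n l) φ := by
    intro w
    refine leading hp n 0 (by omega) hn l t w ?_ _ ?_ ?_
    · unfold cond
      have h1 : (0 : ℤ) ≤ p ^ (n + l) := by positivity
      refine add_nonneg (mul_nonneg (mul_nonneg (by omega) h1) ht) (mul_nonneg ?_ (by omega))
      exact add_nonneg (mul_nonneg (by omega) h1) (by omega)
    · intro E α h
      by_cases hw : wt p E = w - P p n l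
      · rw [pw_pos hw] at h
        exact ⟨hw, hφ E α h, fun a ha => absurd ha (Nat.not_lt_zero _)⟩
      · exact absurd (pw_neg hw φ α) h
    · intro j hj
      rw [Ro_pw, hk j hj, map_zero]
  choose ψ hψ hkψ hRψ using H
  have hwt : ∀ E : ℕ →₀ ℕ, ((wt p E).toNat : ℤ) = wt p E := fun E =>
    Int.toNat_of_nonneg (wt_nonneg E)
  let Ψ : M n k := fun E α => ψ (wt p E).toNat E α
  have hPnat : ∀ j, 0 ≤ P p n j := fun j => by unfold P; positivity
  have hZ : ∀ (j : ℕ) (E : ℕ →₀ ℕ) (α : Fin n →₀ ℕ),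
      Ro p 0 j Ψ E α = Ro p 0 j (ψ (wt p E + P p n j).toNat) E α := by
    intro j E α
    unfold Ro
    rw [LinearMap.sum_apply, LinearMap.sum_apply, Finset.sum_apply, Finset.sum_apply,
      Finset.sum_apply, Finset.sum_apply]
    refine Finset.sum_congr rfl fun a _ => ?_
    rw [Module.End.mul_apply, Module.End.mul_apply]
    by_cases hα : 1 ≤ α a
    · rw [V_apply_pos hα, V_apply_pos hα, Z_apply, Z_apply]
      change ψ (wt p (E + De p a j)).toNat _ _ = _
      rw [wt_add, wt_De]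
    · rw [V_apply_zero hα, V_apply_zero hα]
  refine ⟨Ψ, ?_, ?_, ?_⟩
  · intro E α h
    exact (hψ _ E α h).2.1
  · intro j hj
    funext E α
    rw [hZ, hkψ _ j hj]
  · funext E α
    rw [hZ, hRψ]
    refine pw_pos ?_ _ _
    rw [Int.toNat_of_nonneg (add_nonneg (wt_nonneg E) (hPnat l))]
    ring

/-- **(A1)** -/
theorem specA1 (p n : ℕ) (hp : 2 ≤ p) (k : Type) [CommRing k] : SpecA1 p n k := by
  intro t ht l s φ hφ hs hk
  have hφ' : ∀ E α, toM φ E α ≠ 0 →
      Finsupp.weight (wV p n) α = t + dq p n l + dT p E := fun E α h => hφ E h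
  rcases Nat.eq_zero_or_pos n with hn | hn
  · subst hn
    have h0 : φ = 0 := by
      refine toM_inj ?_
      rw [toM_zero]
      funext E α
      by_contra h
      have h1 := hφ' E α h
      rw [Subsingleton.elim α 0, map_zero] at h1
      have h2 := dT_nonneg hp E
      have h3 : 0 < dq p 0 l := by
        unfold dq
        have h4 : (p : ℤ) ≤ p ^ (0 + 1 + l) := by
          exact_mod_cast Nat.le_self_pow (by omega) p
        have h5 : (2 : ℤ) ≤ p := by exact_mod_cast hp
        omega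
      omega
    refine ⟨0, H521.isDeg_zero, fun E => isHomogeneous_zero _ _ _,
      fun m _ => H521.op_phi_zero _, ?_⟩
    rw [h0, H521.op_phi_zero]
  have hkM : ∀ j < l, Ro p 0 j (toM φ) = 0 := by
    intro j hj
    rw [← toM_op, hk j hj, toM_zero]
  obtain ⟨Ψ, hΨ, hkΨ, hRΨ⟩ := all_weights hp hn t ht l (toM φ) hφ' hkM
  rcases Nat.eq_zero_or_pos s with hs0 | hs0
  · subst hs0
    have h0 : φ = 0 := by
      refine toM_inj ?_
      rw [toM_zero]
      have h1 : ph 0 (toM φ) = 0 := by rw [← hRΨ, ph_zero_Ro]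
      rw [← h1]
      funext E α
      by_cases h : Finsupp.weight (1 : Fin n → ℕ) α = 0
      · rw [ph_pos h]
      · rw [ph_neg h]
        by_contra h2
        exact h (hs E h2)
    refine ⟨0, H521.isDeg_zero, fun E => isHomogeneous_zero _ _ _,
      fun m _ => H521.op_phi_zero _, ?_⟩
    rw [h0, H521.op_phi_zero]
  obtain ⟨r, rfl⟩ : ∃ r, s = r + 1 := ⟨s - 1, by omega⟩
  have hΨ' : ∀ E α, ph r Ψ E α ≠ 0 → Finsupp.weight (wV p n) α = t + dT p E ∧
      Finsupp.weight (1 : Fin n → ℕ) α = r := by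
    intro E α h
    by_cases h1 : Finsupp.weight (1 : Fin n → ℕ) α = r
    · rw [ph_pos h1] at h
      exact ⟨hΨ E α h, h1⟩
    · exact absurd (ph_neg h1 Ψ E) h
  obtain ⟨ψ, hψ⟩ := exists_fnl hp (ph r Ψ) (fun E α h => (hΨ' E α h).1)
  have hψc : ∀ E α, (ψ E).coeff α = ph r Ψ E α := fun E α => congrFun (congrFun hψ E) α
  refine ⟨ψ, ?_, ?_, ?_, ?_⟩
  · intro E α h
    rw [hψc] at h
    exact (hΨ' E α h).1
  · intro E α h
    rw [hψc] at h
    rw [Nat.add_sub_cancel]
    exact (hΨ' E α h).2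
  · intro j hj
    refine toM_inj ?_
    rw [toM_op, hψ, Ro_ph, hkΨ j hj, map_zero, toM_zero]
  · refine toM_inj ?_
    rw [toM_op, hψ, Ro_ph, hRΨ]
    funext E α
    by_cases h : Finsupp.weight (1 : Fin n → ℕ) α = r + 1
    · rw [ph_pos h]
    · rw [ph_neg h]
      by_contra h2
      exact h (hs E (Ne.symm h2))

end conv

end Vale.Agent.P221.H609
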