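import Vale.Agent.P221.H609.Core

/-!
# P221 (A1): the induction
-/

open MvPolynomial

namespace Vale.Agent.P221.H609

noncomputable section ind

variable {p : ℕ} {n : ℕ} {k : Type} [CommRing k]

variable (p n k) in
/-- the leading term claim in degree `t` and weight `w` -/
def A (b l : ℕ) (t w : ℤ) : Prop :=
  ∀ φ : M n k, φ ∈ F p b (t + dq p n l) (w - P p n l) → (∀ j < l, Ro p b j φ = 0) →
    ∃ ψ ∈ (F p b t w : Submodule k (M n k)), (∀ j < l, Ro p b j ψ = 0) ∧ Ro p b l ψ = φ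

lemma comm_apply {f g : Module.End k (M n k)} (h : Commute f g) (φ : M n k) :
    f (g φ) = g (f φ) := by
  rw [← Module.End.mul_apply, h.eq, Module.End.mul_apply]

lemma kill_of_V {a : Fin n} {b j : ℕ} {χ : M n k} (h : Ro p b j (V a χ) = 0) :
    Ro p b j χ = 0 := by
  rw [← comm_apply (commute_V_Ro a b j)] at h
  exact V_inj a h

lemma dec_V {b : ℕ} (hb : b < n) {s u : ℤ} (l : ℕ) {χ : M n k} (hχ : χ ∈ F p b s u)
    (hk : ∀ j < l, Ro p b j χ = 0) (hr : red ⟨b, hb⟩ χ = 0) :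
    ∃ χ' ∈ (F p b (s - wV p n ⟨b, hb⟩) u : Submodule k (M n k)),
      (∀ j < l, Ro p b j χ' = 0) ∧ V ⟨b, hb⟩ χ' = χ := by
  have h1 := V_dV_of_red _ hr
  refine ⟨dV ⟨b, hb⟩ χ, dV_mem hχ, ?_, h1⟩
  intro j hj
  refine kill_of_V (a := ⟨b, hb⟩) ?_
  rw [h1]
  exact hk j hj

lemma liftB {b : ℕ} (hb : b < n) (t w : ℤ) : ∀ (l : ℕ),
    (∀ l' < l, A p n k b l' (t - wV p n ⟨b, hb⟩) w) →
    ∀ θ : M n k, θ ∈ F p (b + 1) t w → (∀ j < l, Ro p (b + 1) j θ = 0) →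
    ∃ ψ ∈ (F p b t w : Submodule k (M n k)), red ⟨b, hb⟩ ψ = θ ∧ ∀ j < l, Ro p b j ψ = 0 := by
  intro l
  induction l with
  | zero =>
    intro _ θ hθ _
    exact ⟨θ, F_mono hθ, red_eq_self (b := b) rfl hθ, fun j hj => absurd hj (Nat.not_lt_zero j)⟩
  | succ l ih =>
    intro hA θ hθ hk
    obtain ⟨ψ, hψ, hr, hkψ⟩ := ih (fun l' hl' => hA l' (by omega)) θ hθ
      (fun j hj => hk j (by omega))
    have h1 : red ⟨b, hb⟩ (Ro p b l ψ) = 0 := by
      rw [red_Ro hb, hr]; exact hk l (by omega)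
    have h2 : ∀ j < l, Ro p b j (Ro p b l ψ) = 0 := by
      intro j hj
      rw [comm_apply (commute_Ro_Ro b j b l), hkψ j hj, map_zero]
    obtain ⟨χ, hχ, hkχ, hVχ⟩ := dec_V hb l (Ro_mem hψ) h2 h1
    have h3 : t + dq p n l - wV p n ⟨b, hb⟩ = t - wV p n ⟨b, hb⟩ + dq p n l := by ring
    rw [h3] at hχ
    obtain ⟨ψ', hψ', hkψ', hRψ'⟩ := hA l (by omega) χ hχ hkχ
    refine ⟨ψ - V ⟨b, hb⟩ ψ', ?_, ?_, ?_⟩
    · refine Submodule.sub_mem _ hψ ?_
      have h4 := V_mem (a := (⟨b, hb⟩ : Fin n)) le_rfl hψ'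
      rwa [sub_add_cancel] at h4
    · rw [map_sub, ← Module.End.mul_apply, red_mul_V, LinearMap.zero_apply, sub_zero]
      exact hr
    · intro j hj
      rw [map_sub, ← comm_apply (commute_V_Ro _ b j)]
      by_cases hjl : j = l
      · subst hjl
        rw [hRψ', hVχ, sub_self]
      · rw [hkψ j (by omega), hkψ' j (by omega), map_zero, sub_zero]

lemma dec {b : ℕ} (hb : b < n) (l : ℕ) (t w : ℤ) (h1 : A p n k (b + 1) l t w)
    (h2 : ∀ l' < l, A p n k b l' (t - wV p n ⟨b, hb⟩) w) (χ : M n k)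
    (hχ : χ ∈ F p b (t + dq p n l) (w - P p n l)) (hk : ∀ j < l, Ro p b j χ = 0) :
    ∃ ψ ∈ (F p b t w : Submodule k (M n k)),
      ∃ χ' ∈ (F p b (t - wV p n ⟨b, hb⟩ + dq p n l) (w - P p n l) : Submodule k (M n k)),
        (∀ j < l, Ro p b j ψ = 0) ∧ (∀ j < l, Ro p b j χ' = 0) ∧
          χ = Ro p b l ψ + V ⟨b, hb⟩ χ' := by
  obtain ⟨θ, hθ, hkθ, hRθ⟩ := h1 (red ⟨b, hb⟩ χ) (red_mem rfl hχ) (by
    intro j hj
    rw [← red_Ro hb, hk j hj, map_zero])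
  obtain ⟨ψ, hψ, hrψ, hkψ⟩ := liftB hb t w l h2 θ hθ hkθ
  have h3 : red ⟨b, hb⟩ (χ - Ro p b l ψ) = 0 := by
    rw [map_sub, red_Ro hb, hrψ, hRθ, sub_self]
  have h4 : ∀ j < l, Ro p b j (χ - Ro p b l ψ) = 0 := by
    intro j hj
    rw [map_sub, hk j hj, comm_apply (commute_Ro_Ro b j b l), hkψ j hj, map_zero, sub_zero]
  obtain ⟨χ', hχ', hkχ', hVχ'⟩ := dec_V hb l (Submodule.sub_mem _ hχ (Ro_mem hψ)) h4 h3
  have h5 : t + dq p n l - wV p n ⟨b, hb⟩ = t - wV p n ⟨b, hb⟩ + dq p n l := by ring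
  rw [h5] at hχ'
  refine ⟨ψ, hψ, χ', hχ', hkψ, hkχ', ?_⟩
  rw [hVχ', add_sub_cancel]

lemma V_pow_mem {b : ℕ} {t w : ℤ} {a : Fin n} (ha : b ≤ a) {φ : M n k} (h : φ ∈ F p b t w)
    (N : ℕ) : (V a ^ N) φ ∈ F p b (t + N * wV p n a) w := by
  induction N with
  | zero => simpa using h
  | succ N ih =>
    rw [pow_succ', Module.End.mul_apply]
    have h1 := V_mem ha ih
    have h2 : t + ((N + 1 : ℕ) : ℤ) * wV p n a = t + N * wV p n a + wV p n a := by
      push_cast; ring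
    rw [h2]
    exact h1

lemma V_pow_kill {a : Fin n} {b j : ℕ} {χ : M n k} (h : Ro p b j χ = 0) (N : ℕ) :
    Ro p b j ((V a ^ N) χ) = 0 := by
  rw [← comm_apply ((commute_V_Ro a b j).pow_left N), h, map_zero]

variable (p n k) in
/-- minus the remaining part of `R l`, after the right inverse of the shift -/
def RW (b : ℕ) (hb : b < n) (l : ℕ) : Module.End k (M n k) :=
  -((Ro p (b + 1) l : Module.End k (M n k)) * W (De p ⟨b, hb⟩ l))

lemma key {b : ℕ} (hb : b < n) (l : ℕ) : ∀ (N : ℕ) (s u : ℤ) (χ : M n k), χ ∈ F p b s u →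
    (∀ j < l, Ro p b j χ = 0) →
    ∃ ψ ∈ (F p b (s + N * wV p n ⟨b, hb⟩ - dq p n l) (u + P p n l) : Submodule k (M n k)),
      (∀ j < l, Ro p b j ψ = 0) ∧
      (V ⟨b, hb⟩ ^ N) χ = Ro p b l ψ + (RW p n k b hb l ^ N) χ := by
  intro N
  induction N with
  | zero =>
    intro s u χ hχ hk
    exact ⟨0, Submodule.zero_mem _, fun j _ => map_zero _, by simp⟩
  | succ N ih =>
    intro s u χ hχ hk
    have hWm := W_mem (De p ⟨b, hb⟩ l) hχ
    rw [wt_De, dT_De] at hWm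
    have hWk : ∀ j < l, Ro p b j (W (De p ⟨b, hb⟩ l) χ) = 0 := by
      intro j hj
      rw [← comm_apply (commute_W_Ro (⟨b, hb⟩ : Fin n) l b j ?_), hk j hj, map_zero]
      intro a ha
      have := a.2
      simp only
      omega
    have hVχ : V ⟨b, hb⟩ χ = Ro p b l (W (De p ⟨b, hb⟩ l) χ) +
        RW p n k b hb l χ := by
      rw [RW, Ro_succ hb, LinearMap.add_apply, LinearMap.neg_apply, Module.End.mul_apply,
        Module.End.mul_apply, ← Module.End.mul_apply (Z _), Z_mul_W, Module.End.one_apply]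
      abel
    have h1m : RW p n k b hb l χ ∈
        (F p b (s + wV p n ⟨b, hb⟩) u : Submodule k (M n k)) := by
      rw [RW, LinearMap.neg_apply, Module.End.mul_apply]
      have h2 := Submodule.neg_mem _ (Ro_mem' (Nat.le_succ b) (l := l) hWm)
      have e1 : s - (P p n l - (p : ℤ) ^ (((⟨b, hb⟩ : Fin n) : ℕ) + 1)) + dq p n l =
          s + wV p n ⟨b, hb⟩ := by
        unfold P dq wV; ring
      have e2 : u + P p n l - P p n l = u := by ring
      rw [e1, e2] at h2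
      exact h2
    have h1k : ∀ j < l, Ro p b j (RW p n k b hb l χ) = 0 := by
      intro j hj
      rw [RW, LinearMap.neg_apply, map_neg, Module.End.mul_apply,
        comm_apply (commute_Ro_Ro b j (b + 1) l), hWk j hj, map_zero, neg_zero]
    obtain ⟨ψ1, hψ1, hk1, hV1⟩ := ih _ _ _ h1m h1k
    refine ⟨(V ⟨b, hb⟩ ^ N) (W (De p ⟨b, hb⟩ l) χ) + ψ1, ?_, ?_, ?_⟩
    · refine Submodule.add_mem _ ?_ ?_
      · have h3 := V_pow_mem (a := (⟨b, hb⟩ : Fin n)) le_rfl hWm N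
        have e1 : s + ((N + 1 : ℕ) : ℤ) * wV p n ⟨b, hb⟩ - dq p n l =
            s - (P p n l - (p : ℤ) ^ (((⟨b, hb⟩ : Fin n) : ℕ) + 1)) + N * wV p n ⟨b, hb⟩ := by
          unfold P dq wV; push_cast; ring
        rw [e1]
        exact h3
      · have e1 : s + ((N + 1 : ℕ) : ℤ) * wV p n ⟨b, hb⟩ - dq p n l =
            s + wV p n ⟨b, hb⟩ + N * wV p n ⟨b, hb⟩ - dq p n l := by
          push_cast; ring
        rw [e1]
        exact hψ1
    · intro j hj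
      rw [map_add, hk1 j hj, V_pow_kill (hWk j hj), add_zero]
    · rw [pow_succ, Module.End.mul_apply, hVχ, map_add,
        comm_apply ((commute_V_Ro (⟨b, hb⟩ : Fin n) b l).pow_left N), hV1, map_add, pow_succ _ N,
        Module.End.mul_apply, add_assoc]

lemma iter {b : ℕ} (hb : b < n) (l : ℕ) (t w : ℤ) : ∀ (N : ℕ),
    (∀ i : ℕ, i < N → A p n k (b + 1) l (t - i * wV p n ⟨b, hb⟩) w) →
    (∀ i : ℕ, i < N → ∀ l' < l, A p n k b l' (t - (i + 1) * wV p n ⟨b, hb⟩) w) →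
    ∀ φ : M n k, φ ∈ F p b (t + dq p n l) (w - P p n l) → (∀ j < l, Ro p b j φ = 0) →
    ∃ ψ ∈ (F p b t w : Submodule k (M n k)),
      ∃ χ ∈ (F p b (t - N * wV p n ⟨b, hb⟩ + dq p n l) (w - P p n l) : Submodule k (M n k)),
        (∀ j < l, Ro p b j ψ = 0) ∧ (∀ j < l, Ro p b j χ = 0) ∧
          φ = Ro p b l ψ + (V ⟨b, hb⟩ ^ N) χ := by
  intro N
  induction N with
  | zero =>
    intro _ _ φ hφ hk
    refine ⟨0, Submodule.zero_mem _, φ, by simpa using hφ, fun j _ => map_zero _, hk, by simp⟩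
  | succ N ih =>
    intro hA hA' φ hφ hk
    obtain ⟨ψ, hψ, χ, hχ, hkψ, hkχ, e⟩ := ih (fun i hi => hA i (by omega))
      (fun i hi => hA' i (by omega)) φ hφ hk
    obtain ⟨ψ', hψ', χ', hχ', hkψ', hkχ', e'⟩ := dec hb l (t - N * wV p n ⟨b, hb⟩) w
      (hA N (by omega)) (by
        intro l' hl'
        have h1 := hA' N (by omega) l' hl'
        have e1 : t - ((N : ℤ) + 1) * wV p n ⟨b, hb⟩ =
          t - N * wV p n ⟨b, hb⟩ - wV p n ⟨b, hb⟩ := by ring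
        rw [e1] at h1
        exact h1) χ hχ hkχ
    refine ⟨ψ + (V ⟨b, hb⟩ ^ N) ψ', ?_, χ', ?_, ?_, hkχ', ?_⟩
    · refine Submodule.add_mem _ hψ ?_
      have h3 := V_pow_mem (a := (⟨b, hb⟩ : Fin n)) le_rfl hψ' N
      rwa [sub_add_cancel] at h3
    · have e1 : t - ((N + 1 : ℕ) : ℤ) * wV p n ⟨b, hb⟩ + dq p n l =
          t - N * wV p n ⟨b, hb⟩ - wV p n ⟨b, hb⟩ + dq p n l := by
        push_cast; ring
      rw [e1]
      exact hχ'
    · intro j hj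
      rw [map_add, hkψ j hj, V_pow_kill (hkψ' j hj), add_zero]
    · rw [e, e', map_add, map_add, pow_succ, Module.End.mul_apply,
        comm_apply ((commute_V_Ro (⟨b, hb⟩ : Fin n) b l).pow_left N), add_assoc]

end ind

end Vale.Agent.P221.H609
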