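import Vale.Agent.P221.H609.Ind

/-!
# P221 (A1): numerics, base case and the outer induction
-/

open MvPolynomial

namespace Vale.Agent.P221.H609

noncomputable section mainind

variable {p : ℕ} {n : ℕ} {k : Type} [CommRing k]

lemma Ro_pow_mem {b b' l : ℕ} (hb : b ≤ b') {t w : ℤ} {φ : M n k} (h : φ ∈ F p b t w) (N : ℕ) :
    ((Ro p b' l : Module.End k (M n k)) ^ N) φ ∈ F p b (t + N * dq p n l) (w - N * P p n l) := by
  induction N with
  | zero => simpa using h
  | succ N ih =>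
    rw [pow_succ', Module.End.mul_apply]
    have h1 := Ro_mem' hb (l := l) ih
    have h2 : t + ((N + 1 : ℕ) : ℤ) * dq p n l = t + N * dq p n l + dq p n l := by
      push_cast; ring
    have h3 : w - ((N + 1 : ℕ) : ℤ) * P p n l = w - N * P p n l - P p n l := by
      push_cast; ring
    rw [h2, h3]
    exact h1

lemma RW_pow_eq_zero {b : ℕ} (hb : b < n) (l N : ℕ) {s u : ℤ} {χ : M n k} (hχ : χ ∈ F p b s u)
    (h : u - N * P p n l < 0) : (RW p n k b hb l ^ N) χ = 0 := by
  have hc : Commute (Ro p (b + 1) l : Module.End k (M n k)) (W (De p ⟨b, hb⟩ l)) := by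
    refine (commute_W_Ro (⟨b, hb⟩ : Fin n) l (b + 1) l ?_).symm
    intro a ha
    have := a.2
    simp only
    omega
  have h0 : RW p n k b hb l =
      (-1 : k) • ((Ro p (b + 1) l : Module.End k (M n k)) * W (De p ⟨b, hb⟩ l)) := by
    refine LinearMap.ext fun φ => ?_
    rw [RW, LinearMap.neg_apply, LinearMap.smul_apply, neg_one_smul]
  rw [h0, smul_pow, hc.mul_pow, (hc.pow_pow N N).eq, LinearMap.smul_apply, Module.End.mul_apply,
    F_neg h (Ro_pow_mem (Nat.le_succ b) hχ N), map_zero, smul_zero]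

variable (p) in
/-- the numerical condition on degree and weight -/
def cond (m l : ℕ) (t w : ℤ) : Prop :=
  0 ≤ ((p : ℤ) - 1) * p ^ (m + l) * t + (((p : ℤ) - 2) * p ^ (m + l) + 1) * w

lemma cond1 (hp : 2 ≤ p) (b m l : ℕ) (i t w : ℤ) (hi0 : 0 ≤ i) (h : cond p (m + 1) l t w)
    (hi : i * (p : ℤ) ^ (b + (m + 1) + 1 + l) ≤ w) :
    cond p m l (t - i * ((p : ℤ) ^ (b + 1) - 1)) w := by
  unfold cond at *
  have hp2 : (2 : ℤ) ≤ p := by exact_mod_cast hp
  have e1 : (p : ℤ) ^ (m + 1 + l) = p ^ (m + l) * p := by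
    rw [← pow_succ]; congr 1; omega
  have e2 : (p : ℤ) ^ (b + (m + 1) + 1 + l) = p ^ (m + l) * p * p ^ (b + 1) := by
    rw [← pow_succ, ← pow_add]; congr 1; omega
  rw [e1] at h
  rw [e2] at hi
  have hq : (0 : ℤ) ≤ p ^ (m + l) := by positivity
  generalize (p : ℤ) ^ (m + l) = q at *
  generalize (p : ℤ) ^ (b + 1) = B at *
  have key : (p : ℤ) * (((p : ℤ) - 1) * q * (t - i * (B - 1)) + (((p : ℤ) - 2) * q + 1) * w) =
      (((p : ℤ) - 1) * (q * p) * t + (((p : ℤ) - 2) * (q * p) + 1) * w) +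
        ((p : ℤ) - 1) * (w - i * (q * p * B)) + ((p : ℤ) - 1) * (q * p * i) := by ring
  have h1 : 0 ≤ ((p : ℤ) - 1) * (w - i * (q * p * B)) :=
    mul_nonneg (by omega) (by linarith)
  have h2 : 0 ≤ ((p : ℤ) - 1) * (q * p * i) :=
    mul_nonneg (by omega) (mul_nonneg (mul_nonneg hq (by omega)) hi0)
  have h3 : 0 ≤ (p : ℤ) * (((p : ℤ) - 1) * q * (t - i * (B - 1)) +
      (((p : ℤ) - 2) * q + 1) * w) := by
    rw [key]; linarith
  exact nonneg_of_mul_nonneg_right h3 (by omega)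

lemma cond2 (hp : 2 ≤ p) (b m l l' : ℕ) (hl : l' < l) (i t w : ℤ) (hi0 : 0 ≤ i)
    (h : cond p (m + 1) l t w) (hi : (i + 1) * (p : ℤ) ^ (b + (m + 1) + 1 + l) ≤ w) :
    cond p (m + 1) l' (t - (i + 1) * ((p : ℤ) ^ (b + 1) - 1)) w := by
  unfold cond at *
  have hp2 : (2 : ℤ) ≤ p := by exact_mod_cast hp
  obtain ⟨e, rfl⟩ : ∃ e, l = l' + 1 + e := ⟨l - l' - 1, by omega⟩
  have e1 : (p : ℤ) ^ (m + 1 + (l' + 1 + e)) = p ^ (m + 1 + l') * (p * p ^ e) := by
    rw [← pow_succ', ← pow_add]; congr 1; omega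
  have e2 : (p : ℤ) ^ (b + (m + 1) + 1 + (l' + 1 + e)) =
      p ^ (m + 1 + l') * (p * p ^ e) * p ^ (b + 1) := by
    rw [← pow_succ', ← pow_add, ← pow_add]; congr 1; omega
  rw [e1] at h
  rw [e2] at hi
  have hq : (0 : ℤ) ≤ p ^ (m + 1 + l') := by positivity
  have hB : (0 : ℤ) ≤ p ^ (b + 1) := by positivity
  have hQ : (1 : ℤ) ≤ p ^ e := by
    exact_mod_cast Nat.one_le_pow e p (by omega)
  have hQ' : (p : ℤ) ≤ p * p ^ e := by
    nlinarith
  generalize (p : ℤ) ^ (m + 1 + l') = q at *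
  generalize (p : ℤ) ^ (b + 1) = B at *
  generalize (p : ℤ) * p ^ e = Q at *
  have hQ0 : 0 < Q := by omega
  have hw : 0 ≤ w := by
    refine le_trans ?_ hi
    exact mul_nonneg (by omega) (mul_nonneg (mul_nonneg hq hQ0.le) hB)
  have key : Q * (((p : ℤ) - 1) * q * (t - (i + 1) * (B - 1)) + (((p : ℤ) - 2) * q + 1) * w) =
      (((p : ℤ) - 1) * (q * Q) * t + (((p : ℤ) - 2) * (q * Q) + 1) * w) +
        (Q - p) * w + ((p : ℤ) - 1) * (w - (i + 1) * (q * Q * B)) +
          ((p : ℤ) - 1) * (q * Q * (i + 1)) := by ring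
  have h1 : 0 ≤ ((p : ℤ) - 1) * (w - (i + 1) * (q * Q * B)) :=
    mul_nonneg (by omega) (by linarith)
  have h2 : 0 ≤ ((p : ℤ) - 1) * (q * Q * (i + 1)) :=
    mul_nonneg (by omega) (mul_nonneg (mul_nonneg hq hQ0.le) (by omega))
  have h4 : 0 ≤ (Q - p) * w := mul_nonneg (by omega) hw
  have h3 : 0 ≤ Q * (((p : ℤ) - 1) * q * (t - (i + 1) * (B - 1)) +
      (((p : ℤ) - 2) * q + 1) * w) := by
    rw [key]; linarith
  exact nonneg_of_mul_nonneg_right h3 hQ0

lemma dT_ge (E : ℕ →₀ ℕ) : ((p : ℤ) - 1) * wt p E ≤ p * dT p E := by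
  unfold wt dT
  rw [Finsupp.weight_apply, Finsupp.weight_apply, Finsupp.sum, Finsupp.sum, Finset.mul_sum,
    Finset.mul_sum]
  refine Finset.sum_le_sum fun i _ => ?_
  rw [nsmul_eq_mul, nsmul_eq_mul, wT]
  have hp1 : (p : ℤ) ≤ p ^ (i + 1) := by
    exact_mod_cast Nat.le_self_pow (Nat.succ_ne_zero i) p
  have hE : (0 : ℤ) ≤ (E i : ℤ) := by positivity
  nlinarith [mul_nonneg hE (sub_nonneg.2 hp1)]

lemma base (hp : 2 ≤ p) {b : ℕ} (hb : b + 1 = n) (l : ℕ) (t w : ℤ) (h : cond p 1 l t w) :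
    A p n k b l t w := by
  intro φ hφ hk
  have hbn : b < n := by omega
  have hp2 : (2 : ℤ) ≤ p := by exact_mod_cast hp
  have hR : ∀ j, (Ro p b j : Module.End k (M n k)) = V ⟨b, hbn⟩ * Z (De p ⟨b, hbn⟩ j) := by
    intro j
    rw [Ro_succ hbn]
    have : (Ro p (b + 1) j : Module.End k (M n k)) = 0 := by
      unfold Ro
      rw [Finset.filter_false_of_mem, Finset.sum_empty]
      intro a _
      have := a.2
      omega
    rw [this, zero_add]
  have hred : red ⟨b, hbn⟩ φ = 0 := by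
    funext E α
    by_cases hα : α ⟨b, hbn⟩ = 0
    · rw [red_apply_zero hα]
      by_contra h0
      obtain ⟨h1, h2, h3⟩ := hφ E α h0
      have hα0 : α = 0 := by
        ext a
        by_cases hab : (a : ℕ) < b
        · exact h3 a hab
        · have : a = ⟨b, hbn⟩ := Fin.ext (by simp only; omega)
          rw [this]; exact hα
      rw [hα0, map_zero] at h2
      have h4 := dT_ge (p := p) E
      have h5 := wt_nonneg (p := p) E
      rw [h1] at h4 h5
      unfold cond at h
      have e1 : P p n l = p ^ (1 + l) * p ^ n := by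
        unfold P; rw [← pow_add]; congr 1; omega
      have e2 : dq p n l = P p n l - 1 := rfl
      have hQ : (p : ℤ) ≤ p ^ (1 + l) := by
        exact_mod_cast Nat.le_self_pow (by omega) p
      have hn : (p : ℤ) ≤ p ^ n := by
        exact_mod_cast Nat.le_self_pow (by omega) p
      have hP : (p : ℤ) < P p n l := by
        rw [e1]; nlinarith
      rw [e2] at h2
      generalize P p n l = PP at *
      generalize (p : ℤ) ^ (1 + l) = Q at *
      generalize dT p E = d at *
      have hd : d = -(t + (PP - 1)) := by linarith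
      subst hd
      have hw : 0 < w := by linarith
      have h6 : (p : ℤ) * t + (p - 1) * w < 0 := by nlinarith
      have h7 : 0 ≤ (p : ℤ) * (((p : ℤ) - 1) * Q * t + (((p : ℤ) - 2) * Q + 1) * w) :=
        mul_nonneg (by omega) h
      have h8 : (p : ℤ) * (((p : ℤ) - 1) * Q * t + (((p : ℤ) - 2) * Q + 1) * w) =
          (((p : ℤ) - 1) * Q) * ((p : ℤ) * t + (p - 1) * w) - (Q - p) * w := by ring
      have h9 : (((p : ℤ) - 1) * Q) * ((p : ℤ) * t + (p - 1) * w) < 0 :=
        mul_neg_of_pos_of_neg (mul_pos (by omega) (by omega)) h6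
      have h10 : 0 ≤ (Q - p) * w := mul_nonneg (by omega) hw.le
      linarith
    · rw [red_apply_pos hα]; rfl
  have hV := V_dV_of_red _ hred
  have hm := W_mem (De p ⟨b, hbn⟩ l) (dV_mem (a := (⟨b, hbn⟩ : Fin n)) hφ)
  rw [wt_De, dT_De] at hm
  have e1 : t + dq p n l - wV p n ⟨b, hbn⟩ -
      (P p n l - (p : ℤ) ^ (((⟨b, hbn⟩ : Fin n) : ℕ) + 1)) = t := by
    unfold dq wV P; ring
  have e2 : w - P p n l + P p n l = w := by ring
  rw [e1, e2] at hm
  refine ⟨W (De p ⟨b, hbn⟩ l) (dV ⟨b, hbn⟩ φ), hm, ?_, ?_⟩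
  · intro j hj
    have h1 : Z (De p ⟨b, hbn⟩ j) φ = 0 := by
      refine V_inj ⟨b, hbn⟩ ?_
      have := hk j hj
      rwa [hR, Module.End.mul_apply] at this
    have h2 : Ro p b j (dV ⟨b, hbn⟩ φ) = 0 := by
      rw [hR, Module.End.mul_apply, comm_apply (commute_Z_dV _ _), h1, map_zero, map_zero]
    rw [← comm_apply (commute_W_Ro (⟨b, hbn⟩ : Fin n) l b j ?_), h2, map_zero]
    intro a ha
    have := a.2
    simp only
    omega
  · rw [hR, Module.End.mul_apply, ← Module.End.mul_apply (Z _), Z_mul_W, Module.End.one_apply, hV]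

theorem leading (hp : 2 ≤ p) : ∀ m b : ℕ, b + m = n → 1 ≤ m → ∀ (l : ℕ) (t w : ℤ),
    cond p m l t w → A p n k b l t w := by
  intro m
  induction m with
  | zero => intro b _ h; omega
  | succ m ihm =>
    intro b hbm _
    by_cases hm : m = 0
    · subst hm
      exact fun l t w h => base hp hbm l t w h
    have hb : b < n := by omega
    have hbm' : (n : ℕ) = b + (m + 1) := hbm.symm
    have IH := ihm (b + 1) (by omega) (by omega)
    intro l
    induction l using Nat.strong_induction_on with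
    | _ l ihl =>
    intro t w hc φ hφ hk
    have hPpos : 0 < P p n l := by
      unfold P
      have : (0 : ℤ) < p := by exact_mod_cast (by omega : 0 < p)
      positivity
    by_cases hw : w < P p n l
    · refine ⟨0, Submodule.zero_mem _, fun j _ => map_zero _, ?_⟩
      rw [F_neg (by omega) hφ, map_zero]
    have hw' : P p n l ≤ w := by omega
    obtain ⟨N, hN⟩ : ∃ N : ℕ, (N : ℤ) = w / P p n l :=
      ⟨(w / P p n l).toNat, Int.toNat_of_nonneg (Int.ediv_nonneg (by omega) hPpos.le)⟩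
    have hN1 : (N : ℤ) * P p n l ≤ w := by
      rw [hN]; exact Int.ediv_mul_le w hPpos.ne'
    have hN2 : w < ((N : ℤ) + 1) * P p n l := by
      rw [hN]; exact Int.lt_ediv_add_one_mul_self w hPpos
    have hPe : P p n l = (p : ℤ) ^ (b + (m + 1) + 1 + l) := by
      unfold P; rw [hbm']
    obtain ⟨ψ, hψ, χ, hχ, hkψ, hkχ, e⟩ := iter hb l t w N (by
        intro i hi
        refine IH l _ w ?_
        refine cond1 hp b m l i t w (by positivity) hc ?_
        rw [← hPe]
        refine le_trans ?_ hN1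
        exact mul_le_mul_of_nonneg_right (by exact_mod_cast hi.le) hPpos.le) (by
        intro i hi l' hl'
        refine ihl l' hl' _ w ?_
        refine cond2 hp b m l l' hl' i t w (by positivity) hc ?_
        rw [← hPe]
        refine le_trans ?_ hN1
        exact mul_le_mul_of_nonneg_right (by exact_mod_cast hi) hPpos.le) φ hφ hk
    obtain ⟨ψ', hψ', hkψ', e'⟩ := key hb l N _ _ χ hχ hkχ
    have e0 : (RW p n k b hb l ^ N) χ = 0 := by
      refine RW_pow_eq_zero hb l N hχ ?_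
      linarith
    rw [e0, add_zero] at e'
    have e1 : t - N * wV p n ⟨b, hb⟩ + dq p n l + N * wV p n ⟨b, hb⟩ - dq p n l = t := by ring
    have e2 : w - P p n l + P p n l = w := by ring
    rw [e1, e2] at hψ'
    refine ⟨ψ + ψ', Submodule.add_mem _ hψ hψ', ?_, ?_⟩
    · intro j hj
      rw [map_add, hkψ j hj, hkψ' j hj, add_zero]
    · rw [map_add, e, e']

end mainind

end Vale.Agent.P221.H609
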