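import Vale.Agent.P221.Defs

/-!
# P221 (A1): shift operators on functions of two exponents

`M n k` is the space of all functions `φ E α` of a `T`-exponent `E` and a `v`-exponent `α`.
-/

open MvPolynomial

namespace Vale.Agent.P221.H609

/-- functions of a `T`-exponent and a `v`-exponent -/
abbrev M (n : ℕ) (k : Type) : Type := (ℕ →₀ ℕ) → (Fin n →₀ ℕ) → k

noncomputable section ops

variable {n : ℕ} {k : Type} [CommRing k]

/-- shift by `D` -/
def Z (D : ℕ →₀ ℕ) : Module.End k (M n k) where
  toFun φ := fun E α => φ (E + D) α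
  map_add' _ _ := rfl
  map_smul' _ _ := rfl

open Classical in
/-- right inverse of the shift by `D` -/
def W (D : ℕ →₀ ℕ) : Module.End k (M n k) where
  toFun φ := fun E α => if D ≤ E then φ (E - D) α else 0
  map_add' φ ψ := by
    funext E α
    by_cases h : D ≤ E <;> simp [h]
  map_smul' c φ := by
    funext E α
    by_cases h : D ≤ E <;> simp [h]

/-- multiplication by `v_{a+1}` -/
def V (a : Fin n) : Module.End k (M n k) where
  toFun φ := fun E α => if 1 ≤ α a then φ E (α - Finsupp.single a 1) else 0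
  map_add' φ ψ := by
    funext E α
    by_cases h : 1 ≤ α a <;> simp [h]
  map_smul' c φ := by
    funext E α
    by_cases h : 1 ≤ α a <;> simp [h]

/-- division by `v_{a+1}` -/
def dV (a : Fin n) : Module.End k (M n k) where
  toFun φ := fun E α => φ E (α + Finsupp.single a 1)
  map_add' _ _ := rfl
  map_smul' _ _ := rfl

/-- reduction modulo `v_{a+1}` -/
def red (a : Fin n) : Module.End k (M n k) where
  toFun φ := fun E α => if α a = 0 then φ E α else 0
  map_add' φ ψ := by
    funext E α
    by_cases h : α a = 0 <;> simp [h]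
  map_smul' c φ := by
    funext E α
    by_cases h : α a = 0 <;> simp [h]

lemma Z_apply (D : ℕ →₀ ℕ) (φ : M n k) (E α) : Z D φ E α = φ (E + D) α := rfl

lemma W_apply_of_le {D : ℕ →₀ ℕ} {E : ℕ →₀ ℕ} (h : D ≤ E) (φ : M n k) (α) :
    W D φ E α = φ (E - D) α := by
  simp [W, h]

lemma W_apply_of_not_le {D : ℕ →₀ ℕ} {E : ℕ →₀ ℕ} (h : ¬ D ≤ E) (φ : M n k) (α) :
    W D φ E α = 0 := by
  simp [W, h]

lemma V_apply_pos {a : Fin n} {α : Fin n →₀ ℕ} (h : 1 ≤ α a) (φ : M n k) (E) :
    V a φ E α = φ E (α - Finsupp.single a 1) := by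
  simp [V, h]

lemma V_apply_zero {a : Fin n} {α : Fin n →₀ ℕ} (h : ¬ 1 ≤ α a) (φ : M n k) (E) :
    V a φ E α = 0 := by
  simp [V, h]

lemma dV_apply (a : Fin n) (φ : M n k) (E α) : dV a φ E α = φ E (α + Finsupp.single a 1) := rfl

lemma red_apply_zero {a : Fin n} {α : Fin n →₀ ℕ} (h : α a = 0) (φ : M n k) (E) :
    red a φ E α = φ E α := by
  simp [red, h]

lemma red_apply_pos {a : Fin n} {α : Fin n →₀ ℕ} (h : ¬ α a = 0) (φ : M n k) (E) :
    red a φ E α = 0 := by
  simp [red, h]

lemma Z_mul_W (D : ℕ →₀ ℕ) : (Z D * W D : Module.End k (M n k)) = 1 := by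
  ext φ E α
  simp only [Module.End.mul_apply, Module.End.one_apply, Z_apply]
  rw [W_apply_of_le (by simp)]
  simp

lemma dV_mul_V (a : Fin n) : (dV a * V a : Module.End k (M n k)) = 1 := by
  ext φ E α
  simp only [Module.End.mul_apply, Module.End.one_apply, dV_apply]
  rw [V_apply_pos (by simp)]
  simp

lemma V_inj (a : Fin n) {φ : M n k} (h : V a φ = 0) : φ = 0 := by
  have := congrArg (dV a) h
  rw [← Module.End.mul_apply, dV_mul_V] at this
  simpa using this

lemma commute_Z_Z (D D' : ℕ →₀ ℕ) : Commute (Z D : Module.End k (M n k)) (Z D') := by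
  ext φ E α
  simp only [Module.End.mul_apply, Z_apply]
  rw [add_right_comm]

lemma commute_Z_V (D : ℕ →₀ ℕ) (a : Fin n) : Commute (Z D : Module.End k (M n k)) (V a) := by
  ext φ E α
  simp only [Module.End.mul_apply, Z_apply]
  by_cases h : 1 ≤ α a
  · rw [V_apply_pos h, V_apply_pos h, Z_apply]
  · rw [V_apply_zero h, V_apply_zero h]

lemma commute_Z_dV (D : ℕ →₀ ℕ) (a : Fin n) : Commute (Z D : Module.End k (M n k)) (dV a) := by
  ext φ E α
  simp only [Module.End.mul_apply, Z_apply, dV_apply]

lemma commute_Z_red (D : ℕ →₀ ℕ) (a : Fin n) : Commute (Z D : Module.End k (M n k)) (red a) := by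
  ext φ E α
  simp only [Module.End.mul_apply, Z_apply]
  by_cases h : α a = 0
  · rw [red_apply_zero h, red_apply_zero h, Z_apply]
  · rw [red_apply_pos h, red_apply_pos h]

lemma commute_W_V (D : ℕ →₀ ℕ) (a : Fin n) : Commute (W D : Module.End k (M n k)) (V a) := by
  ext φ E α
  simp only [Module.End.mul_apply]
  by_cases h : 1 ≤ α a
  · by_cases h' : D ≤ E
    · rw [V_apply_pos h, W_apply_of_le h', W_apply_of_le h', V_apply_pos h]
    · rw [V_apply_pos h, W_apply_of_not_le h', W_apply_of_not_le h']
  · by_cases h' : D ≤ E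
    · rw [V_apply_zero h, W_apply_of_le h', V_apply_zero h]
    · rw [V_apply_zero h, W_apply_of_not_le h']

lemma commute_V_V (a b : Fin n) : Commute (V a : Module.End k (M n k)) (V b) := by
  by_cases hab : a = b
  · subst hab; exact Commute.refl _
  have ha : Finsupp.single b 1 a = 0 := Finsupp.single_eq_of_ne hab
  have hb : Finsupp.single a 1 b = 0 := Finsupp.single_eq_of_ne (Ne.symm hab)
  ext φ E α
  simp only [Module.End.mul_apply]
  by_cases h : 1 ≤ α a
  · by_cases h' : 1 ≤ α b
    · rw [V_apply_pos h, V_apply_pos h', V_apply_pos (by simpa [hb] using h'),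
        V_apply_pos (by simpa [ha] using h), tsub_right_comm]
    · rw [V_apply_pos h, V_apply_zero h', V_apply_zero (by simpa [hb] using h')]
  · by_cases h' : 1 ≤ α b
    · rw [V_apply_zero h, V_apply_pos h', V_apply_zero (by simpa [ha] using h)]
    · rw [V_apply_zero h, V_apply_zero h']

lemma red_mul_V (a : Fin n) : (red a * V a : Module.End k (M n k)) = 0 := by
  ext φ E α
  simp only [Module.End.mul_apply, LinearMap.zero_apply, Pi.zero_apply]
  by_cases h : α a = 0
  · rw [red_apply_zero h, V_apply_zero (by omega)]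
  · rw [red_apply_pos h]

lemma commute_red_V {a b : Fin n} (hab : a ≠ b) :
    Commute (red a : Module.End k (M n k)) (V b) := by
  have ha : Finsupp.single b 1 a = 0 := Finsupp.single_eq_of_ne hab
  ext φ E α
  simp only [Module.End.mul_apply]
  by_cases h : α a = 0
  · by_cases h' : 1 ≤ α b
    · rw [red_apply_zero h, V_apply_pos h', V_apply_pos h', red_apply_zero (by simpa [ha] using h)]
    · rw [red_apply_zero h, V_apply_zero h', V_apply_zero h']
  · by_cases h' : 1 ≤ α b
    · rw [red_apply_pos h, V_apply_pos h', red_apply_pos (by simpa [ha] using h)]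
    · rw [red_apply_pos h, V_apply_zero h']

lemma V_dV_of_red (a : Fin n) {φ : M n k} (h : red a φ = 0) : V a (dV a φ) = φ := by
  funext E α
  by_cases h' : 1 ≤ α a
  · rw [V_apply_pos h', dV_apply]
    congr 1
    refine tsub_add_cancel_of_le ?_
    intro i
    by_cases hi : i = a
    · subst hi; simpa using h'
    · simp [Finsupp.single_eq_of_ne hi]
  · rw [V_apply_zero h']
    have h0 := congrFun (congrFun h E) α
    rw [red_apply_zero (by omega)] at h0
    simpa using h0.symm

lemma commute_Z_W {i j : ℕ} (hij : i ≠ j) (a b : ℕ) :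
    Commute (Z (Finsupp.single i a) : Module.End k (M n k)) (W (Finsupp.single j b)) := by
  have hle : ∀ E : ℕ →₀ ℕ, Finsupp.single j b ≤ E + Finsupp.single i a ↔
      Finsupp.single j b ≤ E := by
    intro E
    rw [Finsupp.single_le_iff, Finsupp.single_le_iff]
    simp [Finsupp.single_eq_of_ne (Ne.symm hij)]
  ext φ E α
  simp only [Module.End.mul_apply, Z_apply]
  by_cases h : Finsupp.single j b ≤ E
  · rw [W_apply_of_le h, W_apply_of_le ((hle E).2 h), Z_apply]
    congr 1
    exact tsub_add_eq_add_tsub h |>.symm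
  · rw [W_apply_of_not_le h, W_apply_of_not_le (fun h' => h ((hle E).1 h'))]

end ops

end Vale.Agent.P221.H609
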