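import Vale.Agent.P221.H609.VMain
import Vale.Agent.P221.T.Alg
import Mathlib.Data.Finsupp.Interval

/-!
# P221 (V): the vanishing theorem
-/

open MvPolynomial

namespace Vale.Agent.P221.H609.VV

noncomputable section conv

variable {p : ℕ} {n : ℕ} {k : Type} [CommRing k]

/-! ### weight projections -/

variable (p) in
open Classical in
/-- the part of weight `w` -/
def pw (w : ℤ) : Module.End k (M (n + 1) k) where
  toFun φ := fun E α => if wt p E = w then φ E α else 0
  map_add' φ ψ := by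
    funext E α
    by_cases h : wt p E = w <;> simp [h]
  map_smul' c φ := by
    funext E α
    by_cases h : wt p E = w <;> simp [h]

lemma pw_pos {w : ℤ} {E : ℕ →₀ ℕ} (h : wt p E = w) (φ : M (n + 1) k) (α) :
    pw p w φ E α = φ E α := by simp [pw, h]

lemma pw_neg {w : ℤ} {E : ℕ →₀ ℕ} (h : ¬ wt p E = w) (φ : M (n + 1) k) (α) :
    pw p w φ E α = 0 := by simp [pw, h]

lemma Z_pw (D : ℕ →₀ ℕ) (w : ℤ) (φ : M (n + 1) k) :
    Z D (pw p w φ) = pw p (w - wt p D) (Z D φ) := by
  funext E α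
  rw [Z_apply]
  by_cases h : wt p E = w - wt p D
  · rw [pw_pos h, pw_pos (by rw [wt_add]; omega), Z_apply]
  · rw [pw_neg h, pw_neg (by rw [wt_add]; omega)]

lemma V_pw (a : Fin (n + 1)) (w : ℤ) (φ : M (n + 1) k) : V a (pw p w φ) = pw p w (V a φ) := by
  funext E α
  by_cases hα : 1 ≤ α a
  · by_cases h : wt p E = w
    · rw [V_apply_pos hα, pw_pos h, pw_pos h, V_apply_pos hα]
    · rw [V_apply_pos hα, pw_neg h, pw_neg h]
  · by_cases h : wt p E = w
    · rw [V_apply_zero hα, pw_pos h, V_apply_zero hα]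
    · rw [V_apply_zero hα, pw_neg h]

lemma Ro_pw (b j : ℕ) (w : ℤ) (φ : M (n + 1) k) :
    Ro p b j (pw p w φ) = pw p (w - P p n j) (Ro p b j φ) := by
  unfold Ro
  rw [LinearMap.sum_apply, LinearMap.sum_apply, map_sum]
  refine Finset.sum_congr rfl fun a _ => ?_
  rw [Module.End.mul_apply, Module.End.mul_apply, Z_pw, V_pw, wt_De]

/-! ### filtration projections -/

/-- polynomial degree -/
def dg (α : Fin (n + 1) →₀ ℕ) : ℤ := Finsupp.weight (fun _ : Fin (n + 1) => (1 : ℤ)) α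

open Classical in
/-- the part of polynomial degree `s` -/
def ph (s : ℤ) : Module.End k (M (n + 1) k) where
  toFun φ := fun E α => if dg α = s then φ E α else 0
  map_add' φ ψ := by
    funext E α
    by_cases h : dg α = s <;> simp [h]
  map_smul' c φ := by
    funext E α
    by_cases h : dg α = s <;> simp [h]

lemma ph_pos {s : ℤ} {α : Fin (n + 1) →₀ ℕ} (h : dg α = s) (φ : M (n + 1) k)
    (E) : ph s φ E α = φ E α := by simp [ph, h]

lemma ph_neg {s : ℤ} {α : Fin (n + 1) →₀ ℕ} (h : ¬ dg α = s) (φ : M (n + 1) k)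
    (E) : ph s φ E α = 0 := by simp [ph, h]

lemma Z_ph (D : ℕ →₀ ℕ) (s : ℤ) (φ : M (n + 1) k) : Z D (ph s φ) = ph s (Z D φ) := by
  funext E α
  rw [Z_apply]
  by_cases h : dg α = s
  · rw [ph_pos h, ph_pos h, Z_apply]
  · rw [ph_neg h, ph_neg h]

lemma dg_sub {a : Fin (n + 1)} {α : Fin (n + 1) →₀ ℕ} (h : 1 ≤ α a) :
    dg (α - Finsupp.single a 1) + 1 = dg α := by
  have hle : Finsupp.single a 1 ≤ α := by
    rw [Finsupp.single_le_iff]; exact h
  unfold dg
  conv_rhs => rw [← tsub_add_cancel_of_le hle]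
  rw [map_add, Finsupp.weight_single, one_smul]

lemma V_ph (a : Fin (n + 1)) (s : ℤ) (φ : M (n + 1) k) : V a (ph s φ) = ph (s + 1) (V a φ) := by
  funext E α
  by_cases hα : 1 ≤ α a
  · have h1 := dg_sub hα
    by_cases h : dg α = s + 1
    · rw [V_apply_pos hα, ph_pos h, ph_pos (by omega), V_apply_pos hα]
    · rw [V_apply_pos hα, ph_neg h, ph_neg (by omega)]
  · by_cases h : dg α = s + 1
    · rw [V_apply_zero hα, ph_pos h, V_apply_zero hα]
    · rw [V_apply_zero hα, ph_neg h]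

lemma Ro_ph (b j : ℕ) (s : ℤ) (φ : M (n + 1) k) :
    Ro p b j (ph s φ) = ph (s + 1) (Ro p b j φ) := by
  unfold Ro
  rw [LinearMap.sum_apply, LinearMap.sum_apply, map_sum]
  refine Finset.sum_congr rfl fun a _ => ?_
  rw [Module.End.mul_apply, Module.End.mul_apply, Z_ph, V_ph]

/-! ### functionals -/

/-- coefficients of a functional -/
def toM (φ : T.Fnl (MvPolynomial (Fin (n + 1)) k)) : M (n + 1) k := fun E α => (φ E).coeff α

lemma toM_inj {φ ψ : T.Fnl (MvPolynomial (Fin (n + 1)) k)} (h : toM φ = toM ψ) : φ = ψ := by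
  funext E
  ext α
  exact congrFun (congrFun h E) α

lemma toM_DD (l : ℕ) (φ : T.Fnl (T.RR p n)) :
    toM (T.DD p n l φ) = Ro p 0 l (toM φ) := by
  classical
  funext E α
  unfold Ro
  rw [Finset.filter_true_of_mem (fun a _ => Nat.zero_le _), LinearMap.sum_apply,
    Finset.sum_apply, Finset.sum_apply]
  unfold toM T.DD
  rw [coeff_sum]
  refine Finset.sum_congr rfl fun a _ => ?_
  rw [Module.End.mul_apply, smul_eq_mul, coeff_X_mul']
  by_cases h : 1 ≤ α a
  · rw [V_apply_pos h, if_pos (by rw [Finsupp.mem_support_iff]; omega)]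
    rfl
  · rw [V_apply_zero h, if_neg (by rw [Finsupp.mem_support_iff]; omega)]

lemma finite_dl (hp : 2 ≤ p) (d : ℤ) : {α : Fin (n + 1) →₀ ℕ | dl p α = d}.Finite := by
  refine Set.Finite.subset
    (Set.finite_Icc 0 (Finsupp.equivFunOnFinite.symm (fun _ : Fin (n + 1) => d.toNat))) ?_
  intro α hα
  rw [Set.mem_ofPred_eq] at hα
  refine Set.mem_Icc.2 ⟨zero_le, ?_⟩
  intro a
  rw [Finsupp.equivFunOnFinite_symm_apply_apply]
  have hpos : ∀ i : ℕ, (1 : ℤ) ≤ (p : ℤ) ^ i := by
    intro i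
    exact_mod_cast Nat.one_le_pow i p (by omega)
  have h1 : (α a : ℤ) ≤ d := by
    rw [← hα]
    unfold dl
    rw [Finsupp.weight_apply]
    by_cases ha : a ∈ α.support
    · rw [Finsupp.sum]
      have h2 : α a • (p : ℤ) ^ (a : ℕ) ≤ ∑ i ∈ α.support, α i • (p : ℤ) ^ (i : ℕ) := by
        refine Finset.single_le_sum (f := fun i : Fin (n + 1) => α i • (p : ℤ) ^ (i : ℕ)) ?_ ha
        intro i _
        rw [nsmul_eq_mul]
        positivity
      refine le_trans ?_ h2
      rw [nsmul_eq_mul]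
      have := hpos a
      nlinarith [(by positivity : (0 : ℤ) ≤ (α a : ℤ))]
    · rw [Finsupp.notMem_support_iff] at ha
      rw [ha, Finsupp.sum]
      refine Finset.sum_nonneg fun i _ => ?_
      rw [nsmul_eq_mul]
      positivity
  omega

lemma exists_fnl (hp : 2 ≤ p) (f : (ℕ →₀ ℕ) → ℤ) (Ψ : M (n + 1) k)
    (hΨ : ∀ E α, Ψ E α ≠ 0 → dl p α = f E) :
    ∃ ψ : T.Fnl (MvPolynomial (Fin (n + 1)) k), toM ψ = Ψ := by
  classical
  refine ⟨fun E => ∑ α ∈ (finite_dl (n := n) hp (f E)).toFinset, monomial α (Ψ E α), ?_⟩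
  funext E α
  unfold toM
  rw [coeff_sum]
  simp only [coeff_monomial]
  rw [Finset.sum_ite_eq' _ α (fun x => Ψ E x)]
  by_cases h : Ψ E α = 0
  · rw [h, ite_self]
  · rw [if_pos]
    rw [Set.Finite.mem_toFinset]
    exact hΨ E α h

/-! ### all weights -/

theorem van_all (hp : 2 ≤ p) (J : Set ℕ) (c : ℤ)
    (hc : ∀ w, P p n 0 ≤ w → (p : ℤ) * ((w - P p n 0) / p) ≤ ((p : ℤ) - 1) * (c + w - 1))
    (ψ : ℕ → M (n + 1) k)
    (hψ : ∀ l ∈ J, ∀ E α, ψ l E α ≠ 0 → dl p α + nb E = c + (wt p E + P p n l))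
    (hcc : ∀ i ∈ J, ∀ l ∈ J, Ro p 0 i (ψ l) = Ro p 0 l (ψ i)) :
    ∃ φ : M (n + 1) k, (∀ E α, φ E α ≠ 0 → dl p α + nb E = c + wt p E) ∧
      ∀ l ∈ J, Ro p 0 l φ = ψ l := by
  have hPnat : ∀ j, 0 ≤ P p n j := fun j => by unfold P; positivity
  have H : ∀ w : ℕ, ∃ φ ∈ (G p 0 (c + w) w : Submodule k (M (n + 1) k)),
      ∀ l ∈ J, Ro p 0 l φ = pw p (w - P p n l) (ψ l) := by
    intro w
    have hmem : ∀ l ∈ J, pw p (w - P p n l) (ψ l) ∈
        (G p 0 (c + w) (w - P p n l) : Submodule k (M (n + 1) k)) := by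
      intro l hl E α h
      by_cases hw : wt p E = w - P p n l
      · rw [pw_pos hw] at h
        have h1 := hψ l hl E α h
        exact ⟨hw, by omega, fun a ha => absurd ha (Nat.not_lt_zero _)⟩
      · exact absurd (pw_neg hw _ α) h
    by_cases hw : (w : ℤ) < P p n 0
    · refine ⟨0, Submodule.zero_mem _, fun l hl => ?_⟩
      rw [map_zero]
      refine (G_neg ?_ (hmem l hl)).symm
      have h9 : P p n 0 ≤ P p n l := by
        unfold P
        exact pow_le_pow_right₀ (by exact_mod_cast (by omega : 1 ≤ p)) (by omega)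
      omega
    refine van_weight hp (c + w) w (hc w (by omega)) (fun l => pw p (w - P p n l) (ψ l)) hmem ?_
    intro i hi l hl
    rw [Ro_pw, Ro_pw, hcc i hi l hl, sub_right_comm]
  choose φ hφ hRφ using H
  let Φ : M (n + 1) k := fun E α => φ (wt p E).toNat E α
  have hZ : ∀ (j : ℕ) (E : ℕ →₀ ℕ) (α : Fin (n + 1) →₀ ℕ),
      Ro p 0 j Φ E α = Ro p 0 j (φ (wt p E + P p n j).toNat) E α := by
    intro j E α
    unfold Ro
    rw [LinearMap.sum_apply, LinearMap.sum_apply, Finset.sum_apply, Finset.sum_apply,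
      Finset.sum_apply, Finset.sum_apply]
    refine Finset.sum_congr rfl fun a _ => ?_
    rw [Module.End.mul_apply, Module.End.mul_apply]
    by_cases hα : 1 ≤ α a
    · rw [V_apply_pos hα, V_apply_pos hα, Z_apply, Z_apply]
      change φ (wt p (E + De p a j)).toNat _ _ = _
      rw [wt_add, wt_De]
    · rw [V_apply_zero hα, V_apply_zero hα]
  refine ⟨Φ, ?_, ?_⟩
  · intro E α h
    have h1 := (hφ _ E α h).2.1
    rw [Int.toNat_of_nonneg (wt_nonneg E)] at h1
    exact h1
  · intro l hl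
    funext E α
    rw [hZ, hRφ _ l hl]
    refine pw_pos ?_ _ _
    rw [Int.toNat_of_nonneg (add_nonneg (wt_nonneg E) (hPnat l))]
    ring

/-! ### degrees -/

lemma weight_sV (α : Fin (n + 1) →₀ ℕ) :
    Finsupp.weight (fun a : Fin (n + 1) => T.sV p a) α = 2 * (dl p α - dg α) := by
  unfold dl dg
  rw [Finsupp.weight_apply, Finsupp.weight_apply, Finsupp.weight_apply, Finsupp.sum, Finsupp.sum,
    Finsupp.sum, ← Finset.sum_sub_distrib, Finset.mul_sum]
  refine Finset.sum_congr rfl fun a _ => ?_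
  unfold T.sV
  rw [nsmul_eq_mul, nsmul_eq_mul, nsmul_eq_mul]
  ring

lemma dT_eq (E : ℕ →₀ ℕ) : T.dT p E = 2 * (wt p E - nb E) := by
  unfold T.dT wt nb
  rw [Finsupp.weight_apply, Finsupp.weight_apply, Finsupp.weight_apply, Finsupp.sum, Finsupp.sum,
    Finsupp.sum, ← Finset.sum_sub_distrib, Finset.mul_sum]
  refine Finset.sum_congr rfl fun a _ => ?_
  unfold T.sV
  rw [nsmul_eq_mul, nsmul_eq_mul, nsmul_eq_mul]
  ring

lemma dd_eq (l : ℕ) : T.dd p n l = 2 * (P p n l - 1) := rfl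

lemma mem_grR {κ s : ℤ} {f : T.RR p n} : f ∈ T.grR p n κ s ↔
    ∀ α, f.coeff α ≠ 0 → 2 * (dl p α - dg α) = κ ∧ dg α = s := by
  constructor
  · intro h α hα
    refine ⟨?_, ?_⟩
    · rw [← weight_sV]
      exact h.1 hα
    · exact h.2 hα
  · intro h
    refine ⟨?_, ?_⟩
    · intro α hα
      have := (h α hα).1
      rw [← weight_sV] at this
      exact this
    · intro α hα
      exact (h α hα).2

/-- **(V)**: for every set `J` of indices, `H¹` vanishes in all degrees `≥ 4 - 2 p^(n+1)`. -/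
theorem specV (p n : ℕ) (hp : 2 ≤ p) : T.SpecV p n := by
  intro J d hd κ hκ s ψ hψ hcc
  have hp2 : (2 : ℤ) ≤ p := by exact_mod_cast hp
  by_cases hs : s < -1
  · refine ⟨0, fun E => AddSubgroup.zero_mem _, fun l hl => ?_⟩
    have h1 : ψ l = 0 := by
      refine toM_inj ?_
      funext E α
      by_contra h0
      have h2 : (ψ l E).coeff α ≠ 0 := by
        intro h3
        apply h0
        unfold toM
        rw [h3]
        simp
      have h4 := (mem_grR.1 (hψ l hl E) α h2).2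
      have h5 : 0 ≤ dg α := by
        unfold dg
        rw [Finsupp.weight_apply, Finsupp.sum]
        refine Finset.sum_nonneg fun i _ => ?_
        rw [nsmul_eq_mul]
        positivity
      omega
    rw [h1]
    refine toM_inj ?_
    rw [toM_DD]
    have h6 : toM (0 : T.Fnl (T.RR p n)) = 0 := by
      funext E α
      simp [toM]
    rw [h6, map_zero]
  -- the case `-1 ≤ s`
  have key : ∀ l ∈ J, ∀ E α, toM (ψ l) E α ≠ 0 →
      2 * (dl p α + nb E) = κ + 2 * (s + (wt p E + P p n l)) ∧ dg α = s + 1 := by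
    intro l hl E α h
    obtain ⟨h1, h2⟩ := mem_grR.1 (hψ l hl E) α h
    rw [dT_eq, dd_eq] at h1
    exact ⟨by omega, h2⟩
  obtain ⟨t, ht⟩ : ∃ t : ℤ, t = κ / 2 := ⟨_, rfl⟩
  have htb : 2 - (p : ℤ) ^ (n + 1) ≤ t := by omega
  have hP0 : P p n 0 = (p : ℤ) ^ (n + 1) := rfl
  obtain ⟨Φ, hΦ, hRΦ⟩ := van_all (k := ZMod p) hp J (s + t) (by
      intro w hw
      have h1 : (p : ℤ) * ((w - P p n 0) / p) ≤ w - P p n 0 := by
        rw [mul_comm]
        exact Int.ediv_mul_le _ (by omega)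
      refine h1.trans ?_
      rw [hP0] at *
      nlinarith [mul_nonneg (by omega : (0 : ℤ) ≤ (p : ℤ) - 2)
        (by omega : (0 : ℤ) ≤ w - (p : ℤ) ^ (n + 1)),
        mul_nonneg (by omega : (0 : ℤ) ≤ (p : ℤ) - 1)
          (by omega : (0 : ℤ) ≤ s + t + w - 1 - (w - (p : ℤ) ^ (n + 1)))])
    (fun l => toM (ψ l)) (by
      intro l hl E α h
      have h1 := (key l hl E α h).1
      omega) (by
      intro i hi l hl
      rw [← toM_DD, ← toM_DD, hcc i hi l hl])
  have hΦ' : ∀ E α, ph s Φ E α ≠ 0 → dl p α + nb E = s + t + wt p E ∧ dg α = s := by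
    intro E α h
    by_cases h1 : dg α = s
    · rw [ph_pos h1] at h
      exact ⟨hΦ E α h, h1⟩
    · exact absurd (ph_neg h1 Φ E) h
  by_cases hodd : κ = 2 * t
  · obtain ⟨φ, hφ⟩ := exists_fnl hp (fun E => s + t + wt p E - nb E) (ph s Φ) (by
      intro E α h
      have := (hΦ' E α h).1
      omega)
    have hφc : ∀ E α, (φ E).coeff α = ph s Φ E α := fun E α => congrFun (congrFun hφ E) α
    refine ⟨φ, ?_, ?_⟩
    · intro E
      refine mem_grR.2 ?_
      intro α h
      rw [hφc] at h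
      obtain ⟨h1, h2⟩ := hΦ' E α h
      rw [dT_eq]
      exact ⟨by omega, h2⟩
    · intro l hl
      refine toM_inj ?_
      rw [toM_DD, hφ, Ro_ph, hRΦ l hl]
      funext E α
      by_cases h : dg α = s + 1
      · rw [ph_pos h]
      · rw [ph_neg h]
        by_contra h2
        exact h (key l hl E α (Ne.symm h2)).2
  · refine ⟨0, fun E => AddSubgroup.zero_mem _, fun l hl => ?_⟩
    have h1 : ψ l = 0 := by
      refine toM_inj ?_
      funext E α
      by_contra h0
      have h2 : toM (ψ l) E α ≠ 0 := by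
        intro h3
        apply h0
        rw [h3]
        simp [toM]
      have h4 := (key l hl E α h2).1
      omega
    rw [h1]
    refine toM_inj ?_
    rw [toM_DD]
    have h6 : toM (0 : T.Fnl (T.RR p n)) = 0 := by
      funext E α
      simp [toM]
    rw [h6, map_zero]

end conv

end Vale.Agent.P221.H609.VV
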