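import Vale.Agent.P221.H609.Core

/-!
# P221 (V): the graded pieces for the ring `k[v_0, …, v_n]`, the operators
-/

open MvPolynomial

namespace Vale.Agent.P221.H609.VV

noncomputable section core

variable (p : ℕ) {n : ℕ} {k : Type} [CommRing k]

/-- the number of factors of a `T`-monomial -/
def nb (E : ℕ →₀ ℕ) : ℤ := Finsupp.weight (fun _ : ℕ => (1 : ℤ)) E

/-- the `δ`-degree, `δ v_a = p^a` -/
def dl (α : Fin (n + 1) →₀ ℕ) : ℤ := Finsupp.weight (fun a : Fin (n + 1) => (p : ℤ) ^ (a : ℕ)) α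

/-- functions of `δ`-degree `d`, weight `w`, not involving `v_a`, `a < b` -/
def G (b : ℕ) (d w : ℤ) : Submodule k (M (n + 1) k) where
  carrier := {φ | ∀ E α, φ E α ≠ 0 →
    wt p E = w ∧ dl p α + nb E = d ∧ ∀ a : Fin (n + 1), (a : ℕ) < b → α a = 0}
  zero_mem' := by
    intro E α h
    exact absurd rfl h
  add_mem' := by
    intro φ ψ hφ hψ E α h
    by_cases h1 : φ E α = 0
    · refine hψ E α ?_
      intro h2
      exact h (by rw [Pi.add_apply, Pi.add_apply, h1, h2, add_zero])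
    · exact hφ E α h1
  smul_mem' := by
    intro c φ hφ E α h
    refine hφ E α ?_
    intro h2
    exact h (by rw [Pi.smul_apply, Pi.smul_apply, h2, smul_zero])

variable {p}

lemma G_mono {b : ℕ} {d w : ℤ} : (G p (b + 1) d w : Submodule k (M (n + 1) k)) ≤ G p b d w := by
  intro φ hφ E α h
  obtain ⟨h1, h2, h3⟩ := hφ E α h
  exact ⟨h1, h2, fun a ha => h3 a (by omega)⟩

lemma nb_nonneg (E : ℕ →₀ ℕ) : 0 ≤ nb E := by
  unfold nb
  rw [Finsupp.weight_apply, Finsupp.sum]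
  refine Finset.sum_nonneg fun i _ => ?_
  rw [nsmul_eq_mul]
  positivity

lemma nb_add (E D : ℕ →₀ ℕ) : nb (E + D) = nb E + nb D := by
  unfold nb; rw [map_add]

lemma G_neg {b : ℕ} {d w : ℤ} (hw : w < 0) {φ : M (n + 1) k} (h : φ ∈ G p b d w) : φ = 0 := by
  funext E α
  by_contra h0
  have h1 := (h E α h0).1
  have h2 := wt_nonneg (p := p) E
  omega

lemma Z_mem {b : ℕ} {d w : ℤ} (D : ℕ →₀ ℕ) {φ : M (n + 1) k} (h : φ ∈ G p b d w) :
    Z D φ ∈ G p b (d - nb D) (w - wt p D) := by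
  intro E α h0
  obtain ⟨h1, h2, h3⟩ := h (E + D) α h0
  rw [wt_add] at h1
  rw [nb_add] at h2
  exact ⟨by omega, by omega, h3⟩

lemma W_mem {b : ℕ} {d w : ℤ} (D : ℕ →₀ ℕ) {φ : M (n + 1) k} (h : φ ∈ G p b d w) :
    W D φ ∈ G p b (d + nb D) (w + wt p D) := by
  intro E α h0
  by_cases hD : D ≤ E
  · rw [W_apply_of_le hD] at h0
    obtain ⟨h1, h2, h3⟩ := h (E - D) α h0
    have hE : E = (E - D) + D := (tsub_add_cancel_of_le hD).symm
    have e1 : wt p E = wt p (E - D) + wt p D := by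
      conv_lhs => rw [hE]
      rw [wt_add]
    have e2 : nb E = nb (E - D) + nb D := by
      conv_lhs => rw [hE]
      rw [nb_add]
    exact ⟨by omega, by omega, h3⟩
  · exact absurd (W_apply_of_not_le hD φ α) h0

lemma V_mem {b : ℕ} {d w : ℤ} {a : Fin (n + 1)} (ha : b ≤ a) {φ : M (n + 1) k}
    (h : φ ∈ G p b d w) : V a φ ∈ G p b (d + (p : ℤ) ^ (a : ℕ)) w := by
  intro E α h0
  by_cases hα : 1 ≤ α a
  · rw [V_apply_pos hα] at h0
    obtain ⟨h1, h2, h3⟩ := h E _ h0
    have hle : Finsupp.single a 1 ≤ α := by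
      rw [Finsupp.single_le_iff]; exact hα
    have e1 : dl p α = dl p (α - Finsupp.single a 1) + (p : ℤ) ^ (a : ℕ) := by
      unfold dl
      conv_lhs => rw [← tsub_add_cancel_of_le hle]
      rw [map_add, Finsupp.weight_single, one_smul]
    refine ⟨h1, by omega, ?_⟩
    intro c hc
    have h4 := h3 c hc
    have hca : c ≠ a := by
      rintro rfl; omega
    rw [Finsupp.tsub_apply, Finsupp.single_eq_of_ne hca] at h4
    simpa using h4
  · exact absurd (V_apply_zero hα φ E) h0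

lemma dV_mem {b : ℕ} {d w : ℤ} {a : Fin (n + 1)} {φ : M (n + 1) k} (h : φ ∈ G p b d w) :
    dV a φ ∈ G p b (d - (p : ℤ) ^ (a : ℕ)) w := by
  intro E α h0
  obtain ⟨h1, h2, h3⟩ := h E (α + Finsupp.single a 1) h0
  unfold dl at h2
  rw [map_add, Finsupp.weight_single, one_smul] at h2
  refine ⟨h1, by unfold dl; omega, ?_⟩
  intro c hc
  have h4 := h3 c hc
  rw [Finsupp.add_apply] at h4
  omega

lemma red_mem {b : ℕ} {d w : ℤ} {a : Fin (n + 1)} (ha : (a : ℕ) = b) {φ : M (n + 1) k}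
    (h : φ ∈ G p b d w) : red a φ ∈ G p (b + 1) d w := by
  intro E α h0
  by_cases hα : α a = 0
  · rw [red_apply_zero hα] at h0
    obtain ⟨h1, h2, h3⟩ := h E α h0
    refine ⟨h1, h2, ?_⟩
    intro c hc
    by_cases hcb : (c : ℕ) < b
    · exact h3 c hcb
    · have : c = a := Fin.ext (by omega)
      rw [this]; exact hα
  · exact absurd (red_apply_pos hα φ E) h0

lemma red_eq_self {b : ℕ} {d w : ℤ} {a : Fin (n + 1)} (ha : (a : ℕ) = b) {φ : M (n + 1) k}
    (h : φ ∈ G p (b + 1) d w) : red a φ = φ := by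
  funext E α
  by_cases hα : α a = 0
  · rw [red_apply_zero hα]
  · rw [red_apply_pos hα]
    by_contra h0
    exact hα ((h E α (Ne.symm h0)).2.2 a (by omega))

/-! ### the operators -/

variable (p)

/-- the shift exponent of the term `a` of `r_l` -/
def De (a : Fin (n + 1)) (l : ℕ) : ℕ →₀ ℕ := Finsupp.single (n + l - a) (p ^ (a : ℕ))

/-- `r_l` restricted to the variables `v_a`, `b ≤ a` -/
def Ro (b l : ℕ) : Module.End k (M (n + 1) k) :=
  ∑ a ∈ Finset.univ.filter (fun a : Fin (n + 1) => b ≤ a), V a * Z (De p a l)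

variable {p}

lemma wt_De (a : Fin (n + 1)) (l : ℕ) : wt p (De p a l) = P p n l := by
  unfold wt De P
  rw [Finsupp.weight_single]
  have : (n + l - (a : ℕ) + 1) + (a : ℕ) = n + 1 + l := by
    have := a.2; omega
  rw [← this, pow_add _ (n + l - (a : ℕ) + 1), nsmul_eq_mul]
  push_cast
  ring

lemma nb_De (a : Fin (n + 1)) (l : ℕ) : nb (De p a l) = (p : ℤ) ^ (a : ℕ) := by
  unfold nb De
  rw [Finsupp.weight_single, nsmul_eq_mul]
  push_cast
  ring

lemma Ro_mem' {b b' l : ℕ} (hb : b ≤ b') {d w : ℤ} {φ : M (n + 1) k} (h : φ ∈ G p b d w) :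
    Ro p b' l φ ∈ G p b d (w - P p n l) := by
  unfold Ro
  rw [LinearMap.sum_apply]
  refine Submodule.sum_mem _ ?_
  intro a ha
  rw [Finset.mem_filter] at ha
  rw [Module.End.mul_apply]
  have h1 := V_mem (p := p) (hb.trans ha.2) (Z_mem (p := p) (De p a l) h)
  rw [wt_De, nb_De, sub_add_cancel] at h1
  exact h1

lemma Ro_mem {b l : ℕ} {d w : ℤ} {φ : M (n + 1) k} (h : φ ∈ G p b d w) :
    Ro p b l φ ∈ G p b d (w - P p n l) := Ro_mem' le_rfl h

lemma Ro_succ {b : ℕ} (hb : b < n + 1) (l : ℕ) :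
    (Ro p b l : Module.End k (M (n + 1) k)) = Ro p (b + 1) l + V ⟨b, hb⟩ * Z (De p ⟨b, hb⟩ l) := by
  unfold Ro
  have : (Finset.univ.filter (fun a : Fin (n + 1) => b ≤ a)) =
      insert (⟨b, hb⟩ : Fin (n + 1)) (Finset.univ.filter (fun a : Fin (n + 1) => b + 1 ≤ a)) := by
    ext a
    simp only [Finset.mem_filter, Finset.mem_univ, true_and, Finset.mem_insert, Fin.ext_iff]
    omega
  rw [this, Finset.sum_insert (by simp)]
  exact add_comm _ _

lemma commute_Ro_Ro (b l b' l' : ℕ) :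
    Commute (Ro p b l : Module.End k (M (n + 1) k)) (Ro p b' l') := by
  unfold Ro
  refine Commute.sum_left _ _ _ fun a _ => Commute.sum_right _ _ _ fun a' _ => ?_
  exact ((commute_V_V a a').mul_right (commute_Z_V _ a).symm).mul_left
    ((commute_Z_V _ a').mul_right (commute_Z_Z _ _))

lemma commute_V_Ro (c : Fin (n + 1)) (b l : ℕ) :
    Commute (V c : Module.End k (M (n + 1) k)) (Ro p b l) := by
  unfold Ro
  exact Commute.sum_right _ _ _ fun a _ => (commute_V_V c a).mul_right (commute_Z_V _ c).symm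

lemma commute_W_Ro (c : Fin (n + 1)) (l b j : ℕ)
    (h : ∀ a : Fin (n + 1), b ≤ a → n + j - (a : ℕ) ≠ n + l - (c : ℕ)) :
    Commute (W (De p c l) : Module.End k (M (n + 1) k)) (Ro p b j) := by
  unfold Ro
  refine Commute.sum_right _ _ _ fun a ha => ?_
  rw [Finset.mem_filter] at ha
  exact (commute_W_V _ a).mul_right (commute_Z_W (h a ha.2) _ _).symm

lemma red_Ro {b : ℕ} (hb : b < n + 1) (l : ℕ) (φ : M (n + 1) k) :
    red ⟨b, hb⟩ (Ro p b l φ) = Ro p (b + 1) l (red ⟨b, hb⟩ φ) := by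
  rw [Ro_succ hb, LinearMap.add_apply, map_add, Module.End.mul_apply]
  have h1 : red (⟨b, hb⟩ : Fin (n + 1)) (V (⟨b, hb⟩ : Fin (n + 1)) (Z (De p ⟨b, hb⟩ l) φ)) = 0 := by
    rw [← Module.End.mul_apply, red_mul_V]; rfl
  rw [h1, add_zero]
  have h2 : Commute (red (⟨b, hb⟩ : Fin (n + 1)) : Module.End k (M (n + 1) k))
      (Ro p (b + 1) l) := by
    unfold Ro
    refine Commute.sum_right _ _ _ fun a ha => ?_
    rw [Finset.mem_filter] at ha
    refine (commute_red_V ?_).mul_right (commute_Z_red _ _).symm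
    intro h
    rw [← h] at ha
    simp at ha
  rw [← Module.End.mul_apply, h2.eq, Module.End.mul_apply]

end core

end Vale.Agent.P221.H609.VV
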