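import Vale.Agent.P221.H609.VCore
import Vale.Agent.P221.H609.Ind

/-!
# P221 (V): the induction steps
-/

open MvPolynomial

namespace Vale.Agent.P221.H609.VV

noncomputable section ind

variable {p : ℕ} {n : ℕ} {k : Type} [CommRing k] {J : Set ℕ}

variable (p n k J) in
/-- surjectivity of `r_l` on the common kernel of the earlier `r_j`, `j ∈ J`, in `δ`-degree `d`
and weight `w` -/
def A (b l : ℕ) (d w : ℤ) : Prop :=
  ∀ φ : M (n + 1) k, φ ∈ G p b d (w - P p n l) → (∀ j ∈ J, j < l → Ro p b j φ = 0) →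
    ∃ ψ ∈ (G p b d w : Submodule k (M (n + 1) k)), (∀ j ∈ J, j < l → Ro p b j ψ = 0) ∧
      Ro p b l ψ = φ

lemma kill_of_V {a : Fin (n + 1)} {b j : ℕ} {χ : M (n + 1) k} (h : Ro p b j (V a χ) = 0) :
    Ro p b j χ = 0 := by
  rw [← comm_apply (commute_V_Ro a b j)] at h
  exact V_inj a h

lemma dec_V {b : ℕ} (hb : b < n + 1) {s u : ℤ} (l : ℕ) {χ : M (n + 1) k} (hχ : χ ∈ G p b s u)
    (hk : ∀ j ∈ J, j < l → Ro p b j χ = 0) (hr : red ⟨b, hb⟩ χ = 0) :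
    ∃ χ' ∈ (G p b (s - (p : ℤ) ^ b) u : Submodule k (M (n + 1) k)),
      (∀ j ∈ J, j < l → Ro p b j χ' = 0) ∧ V ⟨b, hb⟩ χ' = χ := by
  have h1 := V_dV_of_red _ hr
  refine ⟨dV ⟨b, hb⟩ χ, dV_mem hχ, ?_, h1⟩
  intro j hjJ hj
  refine kill_of_V (a := ⟨b, hb⟩) ?_
  rw [h1]
  exact hk j hjJ hj

lemma liftB {b : ℕ} (hb : b < n + 1) (d w : ℤ) : ∀ (l : ℕ),
    (∀ l' ∈ J, l' < l → A p n k J b l' (d - (p : ℤ) ^ b) w) →
    ∀ θ : M (n + 1) k, θ ∈ G p (b + 1) d w → (∀ j ∈ J, j < l → Ro p (b + 1) j θ = 0) →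
    ∃ ψ ∈ (G p b d w : Submodule k (M (n + 1) k)), red ⟨b, hb⟩ ψ = θ ∧
      ∀ j ∈ J, j < l → Ro p b j ψ = 0 := by
  intro l
  induction l with
  | zero =>
    intro _ θ hθ _
    exact ⟨θ, G_mono hθ, red_eq_self (b := b) rfl hθ, fun j _ hj => absurd hj (Nat.not_lt_zero j)⟩
  | succ l ih =>
    intro hA θ hθ hk
    obtain ⟨ψ, hψ, hr, hkψ⟩ := ih (fun l' hJ hl' => hA l' hJ (by omega)) θ hθ
      (fun j hJ hj => hk j hJ (by omega))
    by_cases hlJ : l ∈ J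
    swap
    · refine ⟨ψ, hψ, hr, fun j hjJ hj => hkψ j hjJ ?_⟩
      have : j ≠ l := by
        rintro rfl; exact hlJ hjJ
      omega
    have h1 : red ⟨b, hb⟩ (Ro p b l ψ) = 0 := by
      rw [red_Ro hb, hr]; exact hk l hlJ (by omega)
    have h2 : ∀ j ∈ J, j < l → Ro p b j (Ro p b l ψ) = 0 := by
      intro j hjJ hj
      rw [comm_apply (commute_Ro_Ro b j b l), hkψ j hjJ hj, map_zero]
    obtain ⟨χ, hχ, hkχ, hVχ⟩ := dec_V hb l (Ro_mem hψ) h2 h1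
    obtain ⟨ψ', hψ', hkψ', hRψ'⟩ := hA l hlJ (by omega) χ hχ hkχ
    refine ⟨ψ - V ⟨b, hb⟩ ψ', ?_, ?_, ?_⟩
    · refine Submodule.sub_mem _ hψ ?_
      have h4 := V_mem (a := (⟨b, hb⟩ : Fin (n + 1))) le_rfl hψ'
      rwa [sub_add_cancel] at h4
    · rw [map_sub, ← Module.End.mul_apply, red_mul_V, LinearMap.zero_apply, sub_zero]
      exact hr
    · intro j hjJ hj
      rw [map_sub, ← comm_apply (commute_V_Ro _ b j)]
      by_cases hjl : j = l
      · subst hjl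
        rw [hRψ', hVχ, sub_self]
      · rw [hkψ j hjJ (by omega), hkψ' j hjJ (by omega), map_zero, sub_zero]

lemma dec {b : ℕ} (hb : b < n + 1) (l : ℕ) (d w : ℤ) (h1 : A p n k J (b + 1) l d w)
    (h2 : ∀ l' ∈ J, l' < l → A p n k J b l' (d - (p : ℤ) ^ b) w) (χ : M (n + 1) k)
    (hχ : χ ∈ G p b d (w - P p n l)) (hk : ∀ j ∈ J, j < l → Ro p b j χ = 0) :
    ∃ ψ ∈ (G p b d w : Submodule k (M (n + 1) k)),
      ∃ χ' ∈ (G p b (d - (p : ℤ) ^ b) (w - P p n l) : Submodule k (M (n + 1) k)),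
        (∀ j ∈ J, j < l → Ro p b j ψ = 0) ∧ (∀ j ∈ J, j < l → Ro p b j χ' = 0) ∧
          χ = Ro p b l ψ + V ⟨b, hb⟩ χ' := by
  obtain ⟨θ, hθ, hkθ, hRθ⟩ := h1 (red ⟨b, hb⟩ χ) (red_mem rfl hχ) (by
    intro j hjJ hj
    rw [← red_Ro hb, hk j hjJ hj, map_zero])
  obtain ⟨ψ, hψ, hrψ, hkψ⟩ := liftB hb d w l h2 θ hθ hkθ
  have h3 : red ⟨b, hb⟩ (χ - Ro p b l ψ) = 0 := by
    rw [map_sub, red_Ro hb, hrψ, hRθ, sub_self]
  have h4 : ∀ j ∈ J, j < l → Ro p b j (χ - Ro p b l ψ) = 0 := by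
    intro j hjJ hj
    rw [map_sub, hk j hjJ hj, comm_apply (commute_Ro_Ro b j b l), hkψ j hjJ hj, map_zero, sub_zero]
  obtain ⟨χ', hχ', hkχ', hVχ'⟩ := dec_V hb l (Submodule.sub_mem _ hχ (Ro_mem hψ)) h4 h3
  refine ⟨ψ, hψ, χ', hχ', hkψ, hkχ', ?_⟩
  rw [hVχ', add_sub_cancel]

lemma V_pow_mem {b : ℕ} {d w : ℤ} {a : Fin (n + 1)} (ha : b ≤ a) {φ : M (n + 1) k}
    (h : φ ∈ G p b d w) (N : ℕ) : (V a ^ N) φ ∈ G p b (d + N * (p : ℤ) ^ (a : ℕ)) w := by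
  induction N with
  | zero => simpa using h
  | succ N ih =>
    rw [pow_succ', Module.End.mul_apply]
    have h1 := V_mem ha ih
    have h2 : d + ((N + 1 : ℕ) : ℤ) * (p : ℤ) ^ (a : ℕ) =
        d + N * (p : ℤ) ^ (a : ℕ) + (p : ℤ) ^ (a : ℕ) := by
      push_cast; ring
    rw [h2]
    exact h1

lemma V_pow_kill {a : Fin (n + 1)} {b j : ℕ} {χ : M (n + 1) k} (h : Ro p b j χ = 0) (N : ℕ) :
    Ro p b j ((V a ^ N) χ) = 0 := by
  rw [← comm_apply ((commute_V_Ro a b j).pow_left N), h, map_zero]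

variable (p n k) in
/-- minus the remaining part of `r_l`, after the right inverse of the shift -/
def RW (b : ℕ) (hb : b < n + 1) (l : ℕ) : Module.End k (M (n + 1) k) :=
  -((Ro p (b + 1) l : Module.End k (M (n + 1) k)) * W (De p ⟨b, hb⟩ l))

lemma key {b : ℕ} (hb : b < n + 1) (l : ℕ) : ∀ (N : ℕ) (s u : ℤ) (χ : M (n + 1) k),
    χ ∈ G p b s u → (∀ j ∈ J, j < l → Ro p b j χ = 0) →
    ∃ ψ ∈ (G p b (s + N * (p : ℤ) ^ b) (u + P p n l) : Submodule k (M (n + 1) k)),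
      (∀ j ∈ J, j < l → Ro p b j ψ = 0) ∧
      (V ⟨b, hb⟩ ^ N) χ = Ro p b l ψ + (RW p n k b hb l ^ N) χ := by
  intro N
  induction N with
  | zero =>
    intro s u χ hχ hk
    exact ⟨0, Submodule.zero_mem _, fun j _ _ => map_zero _, by simp⟩
  | succ N ih =>
    intro s u χ hχ hk
    have hWm := W_mem (De p ⟨b, hb⟩ l) hχ
    rw [wt_De, nb_De] at hWm
    have hWk : ∀ j ∈ J, j < l → Ro p b j (W (De p ⟨b, hb⟩ l) χ) = 0 := by
      intro j hjJ hj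
      rw [← comm_apply (commute_W_Ro (⟨b, hb⟩ : Fin (n + 1)) l b j ?_), hk j hjJ hj, map_zero]
      intro a ha
      have := a.2
      simp only
      omega
    have hVχ : V ⟨b, hb⟩ χ = Ro p b l (W (De p ⟨b, hb⟩ l) χ) + RW p n k b hb l χ := by
      rw [RW, Ro_succ hb, LinearMap.add_apply, LinearMap.neg_apply, Module.End.mul_apply,
        Module.End.mul_apply, ← Module.End.mul_apply (Z _), Z_mul_W, Module.End.one_apply]
      abel
    have h1m : RW p n k b hb l χ ∈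
        (G p b (s + (p : ℤ) ^ b) u : Submodule k (M (n + 1) k)) := by
      rw [RW, LinearMap.neg_apply, Module.End.mul_apply]
      have h2 := Submodule.neg_mem _ (Ro_mem' (Nat.le_succ b) (l := l) hWm)
      rw [add_sub_cancel_right] at h2
      exact h2
    have h1k : ∀ j ∈ J, j < l → Ro p b j (RW p n k b hb l χ) = 0 := by
      intro j hjJ hj
      rw [RW, LinearMap.neg_apply, map_neg, Module.End.mul_apply,
        comm_apply (commute_Ro_Ro b j (b + 1) l), hWk j hjJ hj, map_zero, neg_zero]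
    obtain ⟨ψ1, hψ1, hk1, hV1⟩ := ih _ _ _ h1m h1k
    refine ⟨(V ⟨b, hb⟩ ^ N) (W (De p ⟨b, hb⟩ l) χ) + ψ1, ?_, ?_, ?_⟩
    · refine Submodule.add_mem _ ?_ ?_
      · have h3 := V_pow_mem (a := (⟨b, hb⟩ : Fin (n + 1))) le_rfl hWm N
        have e1 : s + ((N + 1 : ℕ) : ℤ) * (p : ℤ) ^ b =
            s + (p : ℤ) ^ (((⟨b, hb⟩ : Fin (n + 1)) : ℕ)) + N * (p : ℤ) ^ b := by
          push_cast; ring
        rw [e1]
        exact h3
      · have e1 : s + ((N + 1 : ℕ) : ℤ) * (p : ℤ) ^ b =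
            s + (p : ℤ) ^ b + N * (p : ℤ) ^ b := by
          push_cast; ring
        rw [e1]
        exact hψ1
    · intro j hjJ hj
      rw [map_add, hk1 j hjJ hj, V_pow_kill (hWk j hjJ hj), add_zero]
    · rw [pow_succ, Module.End.mul_apply, hVχ, map_add,
        comm_apply ((commute_V_Ro (⟨b, hb⟩ : Fin (n + 1)) b l).pow_left N), hV1, map_add,
        pow_succ _ N, Module.End.mul_apply, add_assoc]

lemma iter {b : ℕ} (hb : b < n + 1) (l : ℕ) (d w : ℤ) : ∀ (N : ℕ),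
    (∀ i : ℕ, i < N → A p n k J (b + 1) l (d - i * (p : ℤ) ^ b) w) →
    (∀ i : ℕ, i < N → ∀ l' ∈ J, l' < l → A p n k J b l' (d - (i + 1) * (p : ℤ) ^ b) w) →
    ∀ φ : M (n + 1) k, φ ∈ G p b d (w - P p n l) → (∀ j ∈ J, j < l → Ro p b j φ = 0) →
    ∃ ψ ∈ (G p b d w : Submodule k (M (n + 1) k)),
      ∃ χ ∈ (G p b (d - N * (p : ℤ) ^ b) (w - P p n l) : Submodule k (M (n + 1) k)),
        (∀ j ∈ J, j < l → Ro p b j ψ = 0) ∧ (∀ j ∈ J, j < l → Ro p b j χ = 0) ∧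
          φ = Ro p b l ψ + (V ⟨b, hb⟩ ^ N) χ := by
  intro N
  induction N with
  | zero =>
    intro _ _ φ hφ hk
    refine ⟨0, Submodule.zero_mem _, φ, by simpa using hφ, fun j _ _ => map_zero _, hk, by simp⟩
  | succ N ih =>
    intro hA hA' φ hφ hk
    obtain ⟨ψ, hψ, χ, hχ, hkψ, hkχ, e⟩ := ih (fun i hi => hA i (by omega))
      (fun i hi => hA' i (by omega)) φ hφ hk
    obtain ⟨ψ', hψ', χ', hχ', hkψ', hkχ', e'⟩ := dec hb l (d - N * (p : ℤ) ^ b) w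
      (hA N (by omega)) (by
        intro l' hlJ hl'
        have h1 := hA' N (by omega) l' hlJ hl'
        have e1 : d - ((N : ℤ) + 1) * (p : ℤ) ^ b = d - N * (p : ℤ) ^ b - (p : ℤ) ^ b := by ring
        rw [e1] at h1
        exact h1) χ hχ hkχ
    refine ⟨ψ + (V ⟨b, hb⟩ ^ N) ψ', ?_, χ', ?_, ?_, hkχ', ?_⟩
    · refine Submodule.add_mem _ hψ ?_
      have h3 := V_pow_mem (a := (⟨b, hb⟩ : Fin (n + 1))) le_rfl hψ' N
      rwa [sub_add_cancel] at h3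
    · have e1 : d - ((N + 1 : ℕ) : ℤ) * (p : ℤ) ^ b = d - N * (p : ℤ) ^ b - (p : ℤ) ^ b := by
        push_cast; ring
      rw [e1]
      exact hχ'
    · intro j hjJ hj
      rw [map_add, hkψ j hjJ hj, V_pow_kill (hkψ' j hjJ hj), add_zero]
    · rw [e, e', map_add, map_add, pow_succ, Module.End.mul_apply,
        comm_apply ((commute_V_Ro (⟨b, hb⟩ : Fin (n + 1)) b l).pow_left N), add_assoc]

lemma Ro_pow_mem {b b' l : ℕ} (hb : b ≤ b') {d w : ℤ} {φ : M (n + 1) k} (h : φ ∈ G p b d w)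
    (N : ℕ) : ((Ro p b' l : Module.End k (M (n + 1) k)) ^ N) φ ∈ G p b d (w - N * P p n l) := by
  induction N with
  | zero => simpa using h
  | succ N ih =>
    rw [pow_succ', Module.End.mul_apply]
    have h1 := Ro_mem' hb (l := l) ih
    have h3 : w - ((N + 1 : ℕ) : ℤ) * P p n l = w - N * P p n l - P p n l := by
      push_cast; ring
    rw [h3]
    exact h1

lemma RW_pow_eq_zero {b : ℕ} (hb : b < n + 1) (l N : ℕ) {s u : ℤ} {χ : M (n + 1) k}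
    (hχ : χ ∈ G p b s u) (h : u - N * P p n l < 0) : (RW p n k b hb l ^ N) χ = 0 := by
  have hc : Commute (Ro p (b + 1) l : Module.End k (M (n + 1) k)) (W (De p ⟨b, hb⟩ l)) := by
    refine (commute_W_Ro (⟨b, hb⟩ : Fin (n + 1)) l (b + 1) l ?_).symm
    intro a ha
    have := a.2
    simp only
    omega
  have h0 : RW p n k b hb l =
      (-1 : k) • ((Ro p (b + 1) l : Module.End k (M (n + 1) k)) * W (De p ⟨b, hb⟩ l)) := by
    refine LinearMap.ext fun φ => ?_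
    rw [RW, LinearMap.neg_apply, LinearMap.smul_apply, neg_one_smul]
  rw [h0, smul_pow, hc.mul_pow, (hc.pow_pow N N).eq, LinearMap.smul_apply, Module.End.mul_apply,
    G_neg h (Ro_pow_mem (Nat.le_succ b) hχ N), map_zero, smul_zero]

end ind

end Vale.Agent.P221.H609.VV
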