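import Vale.Agent.P221.H609.VInd

/-!
# P221 (V): numerics, base case and the outer induction
-/

open MvPolynomial

namespace Vale.Agent.P221.H609.VV

noncomputable section mainind

variable {p : ℕ} {n : ℕ} {k : Type} [CommRing k] {J : Set ℕ}

variable (p n) in
/-- `⌊w / P_l⌋` -/
def NN (l : ℕ) (w : ℤ) : ℤ := w / P p n l

variable (p n) in
/-- `N_1 + … + N_l` -/
def SS (l : ℕ) (w : ℤ) : ℤ := ∑ i ∈ Finset.range l, NN p n (i + 1) w

variable (p n) in
/-- the numerical condition -/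
def cond (b l : ℕ) (d w : ℤ) : Prop :=
  ((p : ℤ) - 1) * ((w - P p n 0) / p) + (NN p n 0 w - 1) * ((p : ℤ) ^ n - (p : ℤ) ^ b) +
    ((p : ℤ) - 1) * (p : ℤ) ^ b * SS p n l w ≤ ((p : ℤ) - 1) * (d - 1)

lemma P_pos (hp : 2 ≤ p) (l : ℕ) : 0 < P p n l := by
  unfold P
  have : (0 : ℤ) < p := by exact_mod_cast (by omega : 0 < p)
  positivity

lemma P_succ (l : ℕ) : P p n (l + 1) = P p n l * p := by
  unfold P
  rw [← pow_succ]
  rfl

lemma NN_nonneg (hp : 2 ≤ p) {w : ℤ} (hw : 0 ≤ w) (l : ℕ) : 0 ≤ NN p n l w :=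
  Int.ediv_nonneg hw (P_pos hp l).le

lemma NN_succ (hp : 2 ≤ p) (w : ℤ) (l : ℕ) : p * NN p n (l + 1) w ≤ NN p n l w := by
  unfold NN
  rw [P_succ, ← Int.ediv_ediv_of_nonneg (P_pos hp l).le]
  rw [mul_comm]
  refine Int.ediv_mul_le _ ?_
  have : (2 : ℤ) ≤ p := by exact_mod_cast hp
  omega

lemma SS_succ (l : ℕ) (w : ℤ) : SS p n (l + 1) w = SS p n l w + NN p n (l + 1) w := by
  unfold SS
  rw [Finset.sum_range_succ]

lemma SS_zero (w : ℤ) : SS p n 0 w = 0 := by
  unfold SS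
  simp

lemma SS_le (hp : 2 ≤ p) (w : ℤ) (l : ℕ) :
    ((p : ℤ) - 1) * SS p n l w + NN p n l w ≤ NN p n 0 w := by
  induction l with
  | zero => rw [SS_zero]; simp
  | succ l ih =>
    have h1 := NN_succ (n := n) hp w l
    rw [SS_succ]
    linarith

lemma SS_mono (hp : 2 ≤ p) {w : ℤ} (hw : 0 ≤ w) {l' l : ℕ} (h : l' < l) :
    SS p n l' w + NN p n l w ≤ SS p n l w := by
  obtain ⟨e, rfl⟩ : ∃ e, l = l' + e + 1 := ⟨l - l' - 1, by omega⟩
  rw [SS_succ]
  have : SS p n l' w ≤ SS p n (l' + e) w := by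
    unfold SS
    refine Finset.sum_le_sum_of_subset_of_nonneg ?_ ?_
    · intro i hi
      rw [Finset.mem_range] at *
      omega
    · intro i _ _
      exact NN_nonneg hp hw _
  linarith

lemma cond1 (hp : 2 ≤ p) {b l : ℕ} {d w i : ℤ} (hi : i + 1 ≤ NN p n l w) (h : cond p n b l d w) :
    cond p n (b + 1) l (d - i * (p : ℤ) ^ b) w := by
  unfold cond at *
  have h1 := SS_le (n := n) hp w l
  have hp2 : (2 : ℤ) ≤ p := by exact_mod_cast hp
  have hq : (0 : ℤ) ≤ (p : ℤ) ^ b := by positivity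
  have e1 : (p : ℤ) ^ (b + 1) = (p : ℤ) ^ b * p := pow_succ _ _
  rw [e1]
  generalize (p : ℤ) ^ b = q at *
  have h2 : 0 ≤ ((p : ℤ) - 1) * q *
      (NN p n 0 w - 1 - i - ((p : ℤ) - 1) * SS p n l w) :=
    mul_nonneg (mul_nonneg (by omega) hq) (by linarith)
  nlinarith [h2, h]

lemma cond2 (hp : 2 ≤ p) {b l l' : ℕ} {d w i : ℤ} (hw : 0 ≤ w) (hl : l' < l)
    (hi : i + 1 ≤ NN p n l w) (h : cond p n b l d w) :
    cond p n b l' (d - (i + 1) * (p : ℤ) ^ b) w := by
  unfold cond at *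
  have h1 := SS_mono (n := n) hp hw hl
  have hp2 : (2 : ℤ) ≤ p := by exact_mod_cast hp
  have hq : (0 : ℤ) ≤ (p : ℤ) ^ b := by positivity
  generalize (p : ℤ) ^ b = q at *
  have h2 : 0 ≤ ((p : ℤ) - 1) * q * (SS p n l w - SS p n l' w - (i + 1)) :=
    mul_nonneg (mul_nonneg (by omega) hq) (by linarith)
  nlinarith [h2, h]

lemma nb_le (E : ℕ →₀ ℕ) : p * nb E ≤ wt p E := by
  unfold wt nb
  rw [Finsupp.weight_apply, Finsupp.weight_apply, Finsupp.sum, Finsupp.sum, Finset.mul_sum]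
  refine Finset.sum_le_sum fun i _ => ?_
  rw [nsmul_eq_mul, nsmul_eq_mul]
  have hp1 : (p : ℤ) ≤ p ^ (i + 1) := by
    exact_mod_cast Nat.le_self_pow (Nat.succ_ne_zero i) p
  have hE : (0 : ℤ) ≤ (E i : ℤ) := by positivity
  nlinarith [mul_nonneg hE (sub_nonneg.2 hp1)]

lemma base (hp : 2 ≤ p) (l : ℕ) (d w : ℤ) (hw : P p n l ≤ w) (h : cond p n n l d w) :
    A p n k J n l d w := by
  intro φ hφ hk
  have hbn : n < n + 1 := by omega
  have hp2 : (2 : ℤ) ≤ p := by exact_mod_cast hp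
  have hw0 : 0 ≤ w := le_trans (P_pos hp l).le hw
  have hR : ∀ j, (Ro p n j : Module.End k (M (n + 1) k)) = V ⟨n, hbn⟩ * Z (De p ⟨n, hbn⟩ j) := by
    intro j
    rw [Ro_succ hbn]
    have : (Ro p (n + 1) j : Module.End k (M (n + 1) k)) = 0 := by
      unfold Ro
      rw [Finset.filter_false_of_mem, Finset.sum_empty]
      intro a _
      have := a.2
      omega
    rw [this, zero_add]
  have hred : red ⟨n, hbn⟩ φ = 0 := by
    funext E α
    by_cases hα : α ⟨n, hbn⟩ = 0
    · rw [red_apply_zero hα]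
      by_contra h0
      obtain ⟨h1, h2, h3⟩ := hφ E α h0
      have hα0 : α = 0 := by
        ext a
        by_cases hab : (a : ℕ) < n
        · exact h3 a hab
        · have : a = ⟨n, hbn⟩ := Fin.ext (by have := a.2; simp only; omega)
          rw [this]; exact hα
      have h2' : nb E = d := by
        rw [hα0] at h2
        unfold dl at h2
        rw [map_zero] at h2
        omega
      have h4 := nb_le (p := p) E
      rw [h1, h2'] at h4
      unfold cond at h
      rw [sub_self, mul_zero, add_zero] at h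
      have h5 : 0 ≤ SS p n l w := by
        unfold SS
        exact Finset.sum_nonneg fun i _ => NN_nonneg hp hw0 _
      have h6 : 0 ≤ ((p : ℤ) - 1) * (p : ℤ) ^ n * SS p n l w :=
        mul_nonneg (mul_nonneg (by omega) (by positivity)) h5
      have h7 : ((p : ℤ) - 1) * ((w - P p n 0) / p) ≤ ((p : ℤ) - 1) * (d - 1) := by linarith
      have h8 : (w - P p n 0) / p ≤ d - 1 := le_of_mul_le_mul_left h7 (by omega)
      have h9 : P p n 0 ≤ P p n l := by
        unfold P
        exact pow_le_pow_right₀ (by omega) (by omega)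
      have h10 : d ≤ (w - P p n 0) / p := by
        rw [Int.le_ediv_iff_mul_le (by omega)]
        linarith
      omega
    · rw [red_apply_pos hα]; rfl
  have hV := V_dV_of_red _ hred
  have hm := W_mem (De p ⟨n, hbn⟩ l) (dV_mem (a := (⟨n, hbn⟩ : Fin (n + 1))) hφ)
  rw [wt_De, nb_De, sub_add_cancel, sub_add_cancel] at hm
  refine ⟨W (De p ⟨n, hbn⟩ l) (dV ⟨n, hbn⟩ φ), hm, ?_, ?_⟩
  · intro j hjJ hj
    have h1 : Z (De p ⟨n, hbn⟩ j) φ = 0 := by
      refine V_inj ⟨n, hbn⟩ ?_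
      have := hk j hjJ hj
      rwa [hR, Module.End.mul_apply] at this
    have h2 : Ro p n j (dV ⟨n, hbn⟩ φ) = 0 := by
      rw [hR, Module.End.mul_apply, comm_apply (commute_Z_dV _ _), h1, map_zero, map_zero]
    rw [← comm_apply (commute_W_Ro (⟨n, hbn⟩ : Fin (n + 1)) l n j ?_), h2, map_zero]
    intro a ha
    have := a.2
    simp only
    omega
  · rw [hR, Module.End.mul_apply, ← Module.End.mul_apply (Z _), Z_mul_W, Module.End.one_apply, hV]

theorem leading (hp : 2 ≤ p) : ∀ m b : ℕ, b + m = n → ∀ (l : ℕ) (d w : ℤ), P p n l ≤ w →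
    cond p n b l d w → A p n k J b l d w := by
  intro m
  induction m with
  | zero =>
    intro b hb l d w hw h
    obtain rfl : b = n := by omega
    exact base hp l d w hw h
  | succ m ihm =>
    intro b hbm
    have hb : b < n + 1 := by omega
    have IH := ihm (b + 1) (by omega)
    intro l
    induction l using Nat.strong_induction_on with
    | _ l ihl =>
    intro d w hw hc φ hφ hk
    have hPpos : 0 < P p n l := P_pos hp l
    obtain ⟨N, hN⟩ : ∃ N : ℕ, (N : ℤ) = NN p n l w :=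
      ⟨(NN p n l w).toNat, Int.toNat_of_nonneg (NN_nonneg hp (by omega) l)⟩
    have hN2 : w < ((N : ℤ) + 1) * P p n l := by
      rw [hN]; exact Int.lt_ediv_add_one_mul_self w hPpos
    obtain ⟨ψ, hψ, χ, hχ, hkψ, hkχ, e⟩ := iter hb l d w N (by
        intro i hi
        refine IH l _ w hw ?_
        refine cond1 hp ?_ hc
        rw [← hN]
        exact_mod_cast hi) (by
        intro i hi l' hlJ hl'
        have h9 : P p n l' ≤ P p n l := by
          unfold P
          exact pow_le_pow_right₀ (by exact_mod_cast (by omega : 1 ≤ p)) (by omega)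
        refine ihl l' hl' _ w (h9.trans hw) ?_
        refine cond2 hp (by omega) hl' ?_ hc
        rw [← hN]
        exact_mod_cast hi) φ hφ hk
    obtain ⟨ψ', hψ', hkψ', e'⟩ := key hb l N _ _ χ hχ hkχ
    have e0 : (RW p n k b hb l ^ N) χ = 0 := by
      refine RW_pow_eq_zero hb l N hχ ?_
      linarith
    rw [e0, add_zero] at e'
    rw [sub_add_cancel, sub_add_cancel] at hψ'
    refine ⟨ψ + ψ', Submodule.add_mem _ hψ hψ', ?_, ?_⟩
    · intro j hjJ hj
      rw [map_add, hkψ j hjJ hj, hkψ' j hjJ hj, add_zero]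
    · rw [map_add, e, e']

/-- the sharp bound -/
theorem surj (hp : 2 ≤ p) (l : ℕ) (d w : ℤ)
    (h : (p : ℤ) * ((w - P p n 0) / p) ≤ ((p : ℤ) - 1) * (d - 1)) : A p n k J 0 l d w := by
  by_cases hw : w < P p n l
  · intro φ hφ _
    refine ⟨0, Submodule.zero_mem _, fun j _ _ => map_zero _, ?_⟩
    rw [G_neg (by omega) hφ, map_zero]
  have hw' : P p n l ≤ w := by omega
  refine leading hp n 0 (by omega) l d w hw' ?_
  unfold cond
  have hp2 : (2 : ℤ) ≤ p := by exact_mod_cast hp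
  have h1 := SS_le (n := n) hp w l
  have h2 : 1 ≤ NN p n l w := by
    unfold NN
    rw [Int.le_ediv_iff_mul_le (P_pos hp l)]
    omega
  have h3 : (NN p n 0 w - 1) * (p : ℤ) ^ n ≤ (w - P p n 0) / p := by
    rw [Int.le_ediv_iff_mul_le (by omega)]
    have h4 : NN p n 0 w * P p n 0 ≤ w := Int.ediv_mul_le w (P_pos hp 0).ne'
    have h5 : P p n 0 = (p : ℤ) ^ n * p := by
      unfold P; rw [← pow_succ]
    rw [h5] at h4 ⊢
    linarith
  rw [pow_zero]
  nlinarith [h1, h2, h3, h]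

/-- vanishing of `H¹` in a fixed weight -/
theorem van_weight (hp : 2 ≤ p) (d w : ℤ)
    (h : (p : ℤ) * ((w - P p n 0) / p) ≤ ((p : ℤ) - 1) * (d - 1))
    (ψ : ℕ → M (n + 1) k) (hψ : ∀ l ∈ J, ψ l ∈ (G p 0 d (w - P p n l) : Submodule k _))
    (hc : ∀ i ∈ J, ∀ l ∈ J, Ro p 0 i (ψ l) = Ro p 0 l (ψ i)) :
    ∃ φ ∈ (G p 0 d w : Submodule k (M (n + 1) k)), ∀ l ∈ J, Ro p 0 l φ = ψ l := by
  have H : ∀ L : ℕ, ∃ φ ∈ (G p 0 d w : Submodule k (M (n + 1) k)),
      ∀ l ∈ J, l < L → Ro p 0 l φ = ψ l := by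
    intro L
    induction L with
    | zero => exact ⟨0, Submodule.zero_mem _, fun l _ hl => absurd hl (Nat.not_lt_zero l)⟩
    | succ L ih =>
      obtain ⟨φ, hφ, e⟩ := ih
      by_cases hL : L ∈ J
      · obtain ⟨φ', hφ', hk', e'⟩ := surj (k := k) (J := J) hp L d w h (ψ L - Ro p 0 L φ)
          (Submodule.sub_mem _ (hψ L hL) (Ro_mem hφ)) (by
            intro j hjJ hj
            rw [map_sub, hc j hjJ L hL, comm_apply (commute_Ro_Ro 0 j 0 L), e j hjJ hj, sub_self])
        refine ⟨φ + φ', Submodule.add_mem _ hφ hφ', ?_⟩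
        intro l hlJ hl
        rw [map_add]
        by_cases hlL : l = L
        · subst hlL
          rw [e']
          exact add_sub_cancel _ _
        · rw [e l hlJ (by omega), hk' l hlJ (by omega), add_zero]
      · refine ⟨φ, hφ, fun l hlJ hl => e l hlJ ?_⟩
        have : l ≠ L := by
          rintro rfl; exact hL hlJ
        omega
  obtain ⟨φ, hφ, e⟩ := H (w.toNat + 1)
  refine ⟨φ, hφ, ?_⟩
  intro l hlJ
  by_cases hl : l < w.toNat + 1
  · exact e l hlJ hl
  · have h1 : w < P p n l := by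
      have h2 : l < p ^ (n + 1 + l) := by
        calc l < p ^ l := Nat.lt_pow_self (by omega)
          _ ≤ p ^ (n + 1 + l) := Nat.pow_le_pow_right (by omega) (by omega)
      have h3 : (l : ℤ) < P p n l := by
        unfold P
        exact_mod_cast h2
      omega
    rw [G_neg (by omega) (hψ l hlJ), G_neg (by omega) (Ro_mem (l := l) hφ)]

end mainind

end Vale.Agent.P221.H609.VV
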